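import Vale.Agent.P231.H997.SV1
import Vale.Agent.P231.WD.GeoInst

/-!
# P231, block C: length, energy, first variation
-/

set_option maxSynthPendingDepth 3
set_option linter.unusedSectionVars false
set_option linter.unusedVariables false

open Bundle Manifold Set Filter Module MeasureTheory
open scoped ContDiff Manifold Topology ENNReal

namespace Vale.Agent.P231.H997

noncomputable section

open Vale.Agent.P234 Vale.Agent.P231 Vale.Agent.P231.H775 Vale.Agent.P231.Fm Vale.Agent.P231.W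

/-- differentiation under the integral sign -/
theorem hasDerivAt_int {V : Type*} [NormedAddCommGroup V] [NormedSpace ℝ V] {g : ℝ × ℝ → V}
    {U : Set ℝ} (hU : IsOpen U) (hg : ContDiffOn ℝ 1 g (U ×ˢ univ)) (a b : ℝ) {x : ℝ}
    (hx : x ∈ U) :
    HasDerivAt (fun s => ∫ t in a..b, g (s, t)) (∫ t in a..b, deriv (fun s => g (s, t)) x) x := by
  have hop : IsOpen (U ×ˢ (univ : Set ℝ)) := hU.prod isOpen_univ
  have hd : ∀ s ∈ U, ∀ t, HasDerivAt (fun s => g (s, t)) (fderiv ℝ g (s, t) (1, 0)) s := by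
    intro s hs t
    have h1 : HasDerivAt (fun s : ℝ => (s, t)) ((1 : ℝ), (0 : ℝ)) s :=
      (hasDerivAt_id s).prodMk (hasDerivAt_const s t)
    have h2 : DifferentiableAt ℝ g (s, t) :=
      (hg.differentiableOn (by norm_num)).differentiableAt (hop.mem_nhds ⟨hs, mem_univ t⟩)
    exact h2.hasFDerivAt.comp_hasDerivAt s h1
  have hG : ContinuousOn (fun p => fderiv ℝ g p (1, 0)) (U ×ˢ univ) :=
    (hg.continuousOn_fderiv_of_isOpen hop (by norm_num)).clm_apply continuousOn_const
  have hcs : ∀ s ∈ U, Continuous fun t => g (s, t) := fun s hs =>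
    hg.continuousOn.comp_continuous (Continuous.prodMk_right s) fun t => ⟨hs, mem_univ t⟩
  have hcd : ∀ s ∈ U, Continuous fun t => fderiv ℝ g (s, t) (1, 0) := fun s hs =>
    hG.comp_continuous (Continuous.prodMk_right s) fun t => ⟨hs, mem_univ t⟩
  obtain ⟨r, hr, hrU⟩ := Metric.nhds_basis_closedBall.mem_iff.1 (hU.mem_nhds hx)
  have hK : IsCompact (Metric.closedBall x r ×ˢ uIcc a b) :=
    (isCompact_closedBall x r).prod isCompact_uIcc
  obtain ⟨C, hC⟩ := hK.exists_bound_of_continuousOn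
    (hG.mono (prod_mono hrU (subset_univ _)))
  have h1 : (∫ t in a..b, deriv (fun s => g (s, t)) x) = ∫ t in a..b, fderiv ℝ g (x, t) (1, 0) :=
    intervalIntegral.integral_congr fun t _ => (hd x hx t).deriv
  rw [h1]
  refine (intervalIntegral.hasDerivAt_integral_of_dominated_loc_of_deriv_le
    (F := fun s t => g (s, t)) (F' := fun s t => fderiv ℝ g (s, t) (1, 0))
    (s := Metric.closedBall x r) (bound := fun _ => C)
    (Metric.closedBall_mem_nhds x hr) ?_ ?_ ?_ ?_ ?_ ?_).2
  · filter_upwards [hU.mem_nhds hx] with s hs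
    exact (hcs s hs).aestronglyMeasurable
  · exact (hcs x hx).intervalIntegrable a b
  · exact (hcd x hx).aestronglyMeasurable
  · refine Eventually.of_forall fun t ht s hs => hC (s, t) ⟨hs, uIoc_subset_uIcc ht⟩
  · exact intervalIntegrable_const
  · exact Eventually.of_forall fun t ht s hs => hd s (hrU hs) t

variable {E : Type*} [NormedAddCommGroup E] [NormedSpace ℝ E] [FiniteDimensional ℝ E]
  {M : Type*} [MetricSpace M] [ChartedSpace E M] [IsManifold 𝓘(ℝ, E) ∞ M]
  [RiemannianBundle (fun x : M => TangentSpace 𝓘(ℝ, E) x)]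
  [IsContMDiffRiemannianBundle 𝓘(ℝ, E) ∞ E (fun x : M => TangentSpace 𝓘(ℝ, E) x)]
  {e : ∀ x : M, TangentSpace 𝓘(ℝ, E) x → M}

/-- the energy density -/
def en (c : ℝ → M) (t : ℝ) : ℝ := nm (c t) (dv (E := E) c t) ^ 2 / 2

theorem contDiff_speed_sq {c : ℝ → M} (hc : ContMDiff 𝓘(ℝ, ℝ) 𝓘(ℝ, E) ∞ c) :
    ContDiff ℝ ∞ (fun t => nm (c t) (dv (E := E) c t) ^ 2) := by
  rw [contDiff_iff_contDiffAt]
  intro t
  have h1 : ContMDiffAt 𝓘(ℝ, ℝ × ℝ) 𝓘(ℝ, E) ∞ (fun p : ℝ × ℝ => c p.2) (t, t) :=
    ContMDiffAt.comp (t, t) hc.contMDiffAt contDiffAt_snd.contMDiffAt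
  exact (SmV_dv (H := fun _ : ℝ => c) (τ := fun y : ℝ => y) (s := t) h1 contDiffAt_id).norm_sq

theorem nm_nonneg' (x : M) (v : E) : 0 ≤ nm x v := norm_nonneg (E := TangentSpace 𝓘(ℝ, E) x) v

theorem continuous_speed {c : ℝ → M} (hc : ContMDiff 𝓘(ℝ, ℝ) 𝓘(ℝ, E) ∞ c) :
    Continuous (fun t => nm (c t) (dv (E := E) c t)) := by
  have h1 : (fun t => nm (c t) (dv (E := E) c t)) =
      fun t => Real.sqrt (nm (c t) (dv (E := E) c t) ^ 2) := by
    funext t
    rw [Real.sqrt_sq (nm_nonneg' _ _)]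
  rw [h1]
  exact Real.continuous_sqrt.comp (contDiff_speed_sq hc).continuous

variable [IsRiemannianManifold 𝓘(ℝ, E) M]

theorem edist_le_int {c : ℝ → M} (hc : ContMDiff 𝓘(ℝ, ℝ) 𝓘(ℝ, E) ∞ c) {a b : ℝ} (hab : a ≤ b) :
    edist (c a) (c b) ≤ ENNReal.ofReal (∫ t in a..b, nm (c t) (dv (E := E) c t)) := by
  rw [IsRiemannianManifold.out (I := 𝓘(ℝ, E)) (c a) (c b)]
  have h2 : riemannianEDist 𝓘(ℝ, E) (c a) (c b) ≤ pathELength 𝓘(ℝ, E) c a b := by
    apply riemannianEDist_le_pathELength
    · exact fun t ht => ((hc t).of_le (by simp)).contMDiffWithinAt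
    · rfl
    · rfl
    · exact hab
  refine h2.trans (le_of_eq ?_)
  rw [pathELength_eq_lintegral_mfderiv_Icc, intervalIntegral.integral_of_le hab,
    ← integral_Icc_eq_integral_Ioc, ofReal_integral_eq_lintegral_ofReal]
  · refine lintegral_congr fun t => ?_
    rw [← ofReal_norm]
    rfl
  · exact (continuous_speed hc).integrableOn_Icc
  · exact Eventually.of_forall fun t => nm_nonneg' _ _

/-- the variation is at most the integral of the speed -/
theorem evar_le_int {c : ℝ → M} (hc : ContMDiff 𝓘(ℝ, ℝ) 𝓘(ℝ, E) ∞ c) {a b : ℝ} (hab : a ≤ b) :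
    eVariationOn c (Icc a b) ≤ ENNReal.ofReal (∫ t in a..b, nm (c t) (dv (E := E) c t)) := by
  have hint : ∀ x y : ℝ, IntervalIntegrable (fun t => nm (c t) (dv (E := E) c t)) volume x y :=
    fun x y => (continuous_speed hc).intervalIntegrable x y
  have hpos : ∀ x y : ℝ, x ≤ y → 0 ≤ ∫ t in x..y, nm (c t) (dv (E := E) c t) := fun x y h =>
    intervalIntegral.integral_nonneg h fun t _ => nm_nonneg' _ _
  refine iSup_le fun p => ?_
  obtain ⟨n, u, hu, huI⟩ := p
  change ∑ i ∈ Finset.range n, edist (c (u (i + 1))) (c (u i)) ≤ _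
  calc ∑ i ∈ Finset.range n, edist (c (u (i + 1))) (c (u i))
      ≤ ∑ i ∈ Finset.range n, ENNReal.ofReal
          (∫ t in u i..u (i + 1), nm (c t) (dv (E := E) c t)) := by
        refine Finset.sum_le_sum fun i _ => ?_
        rw [edist_comm]
        exact edist_le_int hc (hu (Nat.le_succ i))
    _ = ENNReal.ofReal (∑ i ∈ Finset.range n,
          ∫ t in u i..u (i + 1), nm (c t) (dv (E := E) c t)) :=
        (ENNReal.ofReal_sum_of_nonneg fun i _ => hpos _ _ (hu (Nat.le_succ i))).symm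
    _ = ENNReal.ofReal (∫ t in u 0..u n, nm (c t) (dv (E := E) c t)) := by
        rw [intervalIntegral.sum_integral_adjacent_intervals fun i _ => hint _ _]
    _ ≤ _ := by
        refine ENNReal.ofReal_le_ofReal ?_
        refine intervalIntegral.integral_mono_interval (huI 0).1 (hu (Nat.zero_le n)) (huI n).2
          (Eventually.of_forall fun t => nm_nonneg' _ _) (hint _ _)

theorem dist_le_int {c : ℝ → M} (hc : ContMDiff 𝓘(ℝ, ℝ) 𝓘(ℝ, E) ∞ c) {a b : ℝ} (hab : a ≤ b) :
    dist (c a) (c b) ≤ ∫ t in a..b, nm (c t) (dv (E := E) c t) := by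
  have h1 := edist_le_int hc hab
  rw [edist_dist] at h1
  exact (ENNReal.ofReal_le_ofReal_iff (intervalIntegral.integral_nonneg hab fun t _ =>
    nm_nonneg' _ _)).1 h1

/-- the energy of a curve is at least that of the minimal geodesic -/
theorem cost_le_energy {c : ℝ → M} (hc : ContMDiff 𝓘(ℝ, ℝ) 𝓘(ℝ, E) ∞ c) {a b : ℝ} (hab : a < b) :
    cost (c a) (c b) / (b - a) ≤ ∫ t in a..b, en (E := E) c t := by
  have h1 := dist_le_int hc hab.le
  have hT : 0 < b - a := sub_pos.2 hab
  set d := dist (c a) (c b) with hd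
  have hd0 : 0 ≤ d := dist_nonneg
  have h2 : ∫ t in a..b, d / (b - a) * nm (c t) (dv (E := E) c t) ≤
      ∫ t in a..b, (en (E := E) c t + (d / (b - a)) ^ 2 / 2) := by
    refine intervalIntegral.integral_mono_on hab.le ?_ ?_ fun t _ => ?_
    · exact ((continuous_const.mul (continuous_speed hc)).intervalIntegrable _ _)
    · refine Continuous.intervalIntegrable ?_ _ _
      exact ((contDiff_speed_sq hc).continuous.div_const 2).add continuous_const
    · have := sq_nonneg (nm (c t) (dv (E := E) c t) - d / (b - a))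
      unfold en
      nlinarith
  rw [intervalIntegral.integral_const_mul, intervalIntegral.integral_add,
    intervalIntegral.integral_const, smul_eq_mul] at h2
  · have h3 : d / (b - a) * d ≤ d / (b - a) * ∫ t in a..b, nm (c t) (dv (E := E) c t) :=
      mul_le_mul_of_nonneg_left h1 (by positivity)
    have h4 : (b - a) * ((d / (b - a)) ^ 2 / 2) = d ^ 2 / 2 / (b - a) := by
      field_simp
    have h5 : d / (b - a) * d = d ^ 2 / 2 / (b - a) + d ^ 2 / 2 / (b - a) := by
      field_simp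
      ring
    unfold cost
    rw [← hd]
    linarith
  · exact ((contDiff_speed_sq hc).continuous.div_const 2).intervalIntegrable _ _
  · exact intervalIntegrable_const

end

end Vale.Agent.P231.H997
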