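import Vale.Agent.P231.H997.SV2

/-!
# P231, block C: first variation of the energy of a minimal geodesic
-/

set_option maxSynthPendingDepth 3
set_option linter.unusedSectionVars false
set_option linter.unusedVariables false

open Bundle Manifold Set Filter Module MeasureTheory
open scoped ContDiff Manifold Topology ENNReal

namespace Vale.Agent.P231.H997

noncomputable section

open Vale.Agent.P234 Vale.Agent.P231 Vale.Agent.P231.H775 Vale.Agent.P231.Fm Vale.Agent.P231.W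

variable {E : Type*} [NormedAddCommGroup E] [NormedSpace ℝ E] [FiniteDimensional ℝ E]
  {M : Type*} [MetricSpace M] [ChartedSpace E M] [IsManifold 𝓘(ℝ, E) ∞ M]
  [RiemannianBundle (fun x : M => TangentSpace 𝓘(ℝ, E) x)]
  [IsContMDiffRiemannianBundle 𝓘(ℝ, E) ∞ E (fun x : M => TangentSpace 𝓘(ℝ, E) x)]
  {e : ∀ x : M, TangentSpace 𝓘(ℝ, E) x → M}

/-- derivative of the cost in the first variable, raw form -/
def dcost (y z : M) (w : E) : ℝ := mfderiv 𝓘(ℝ, E) 𝓘(ℝ, ℝ) (fun q : M => cost q z) y w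

theorem dcost_eq (F : Facts e) {D : ℝ} (hB : InjGE e D) {y z : M} {v : E} (hv : nm y v < D)
    (hz : z = e y v) (w : E) : dcost y z w = -ip y v w := by
  subst hz
  have h1 : (v : TangentSpace 𝓘(ℝ, E) y) ∈ injDomain e y := hB.mem_injDomain hv
  exact mfderiv_cost F.isExp y v (injDomain_subset_segMin F.isExp y h1)
    (F.smooth_cost y v h1) w

/-- derivative of the cost along two curves -/
theorem hasDerivAt_cost_curves {p q : ℝ → M} (hs : SmoothAt E (p 0) (q 0))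
    (hp : MDifferentiableAt 𝓘(ℝ, ℝ) 𝓘(ℝ, E) p 0) (hq : MDifferentiableAt 𝓘(ℝ, ℝ) 𝓘(ℝ, E) q 0) :
    HasDerivAt (fun s => cost (p s) (q s))
      (dcost (E := E) (p 0) (q 0) (dv p 0) + dcost (E := E) (q 0) (p 0) (dv q 0)) 0 := by
  have hc : MDifferentiableAt (𝓘(ℝ, E).prod 𝓘(ℝ, E)) 𝓘(ℝ, ℝ) (fun p : M × M => cost p.1 p.2)
      (p 0, q 0) := hs.contMDiffAt.mdifferentiableAt (by simp)
  have hpq : MDifferentiableAt 𝓘(ℝ, ℝ) (𝓘(ℝ, E).prod 𝓘(ℝ, E)) (fun s => (p s, q s)) 0 :=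
    hp.prodMk hq
  have h1 : MDifferentiableAt 𝓘(ℝ, ℝ) 𝓘(ℝ, ℝ) (fun s => cost (p s) (q s)) 0 :=
    MDifferentiableAt.comp (I' := 𝓘(ℝ, E).prod 𝓘(ℝ, E)) (0 : ℝ) hc hpq
  have h2 := mfderiv_comp_apply (0 : ℝ) (I' := 𝓘(ℝ, E).prod 𝓘(ℝ, E)) (I'' := 𝓘(ℝ, ℝ))
    (g := fun p : M × M => cost p.1 p.2) (f := fun s => (p s, q s)) hc hpq (1 : ℝ)
  have h3 := mfderiv_prodMk (I := 𝓘(ℝ, ℝ)) (I' := 𝓘(ℝ, E)) (I'' := 𝓘(ℝ, E)) hp hq
  have h4 := mfderiv_prod_eq_add_apply (v := ((dv p 0 : E), (dv q 0 : E))) hc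
  have h5 : (mfderiv 𝓘(ℝ, ℝ) (𝓘(ℝ, E).prod 𝓘(ℝ, E)) (fun s => (p s, q s)) 0 (1 : ℝ) : E × E) =
      ((dv p 0 : E), (dv q 0 : E)) := by
    rw [h3]
    rfl
  have h6 : dcost (E := E) (q 0) (p 0) (dv q 0) =
      mfderiv 𝓘(ℝ, E) 𝓘(ℝ, ℝ) (fun z : M => cost (p 0) z) (q 0) (dv q 0 : E) := by
    unfold dcost
    have : (fun z : M => cost (p 0) z) = fun z : M => cost z (p 0) := by
      funext z
      exact cost_comm _ _
    rw [this]
    rfl
  have h7 : HasDerivAt (fun s => cost (p s) (q s))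
      (mfderiv 𝓘(ℝ, ℝ) 𝓘(ℝ, ℝ) (fun s => cost (p s) (q s)) 0 (1 : ℝ)) 0 := by
    have h8 := h1.differentiableAt.hasDerivAt
    rw [mfderiv_eq_fderiv]
    exact h8
  refine h7.congr_deriv ?_
  refine Eq.trans h2 ?_
  rw [h6]
  refine Eq.trans ?_ h4
  exact congrArg (mfderiv (𝓘(ℝ, E).prod 𝓘(ℝ, E)) 𝓘(ℝ, ℝ) (fun p : M × M => cost p.1 p.2)
      (p 0, q 0)) h5

theorem ip_smul_left' (x : M) (c : ℝ) (v w : E) : ip x (c • v) w = c * ip x v w :=
  real_inner_smul_left (F := TangentSpace 𝓘(ℝ, E) x) v w c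

theorem ip_comm' (x : M) (v w : E) : ip x v w = ip x w v :=
  real_inner_comm (F := TangentSpace 𝓘(ℝ, E) x) w v

theorem ip_neg_left' (x : M) (v w : E) : ip x (-v) w = -ip x v w :=
  inner_neg_left (𝕜 := ℝ) (E := TangentSpace 𝓘(ℝ, E) x) v w

/-- derivative of the cost of the end points of a variation of a minimal geodesic -/
theorem hasDerivAt_cost_gam (F : Facts e) {D : ℝ} (hB : InjGE e D) {x : M} {u : E}
    (hu : nm x u = 1) {a b : ℝ} (hab : a < b) (hbD : b - a < D) {p q : ℝ → M}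
    (hp : MDifferentiableAt 𝓘(ℝ, ℝ) 𝓘(ℝ, E) p 0) (hq : MDifferentiableAt 𝓘(ℝ, ℝ) 𝓘(ℝ, E) q 0)
    (hp0 : p 0 = gam e x u a) (hq0 : q 0 = gam e x u b) :
    HasDerivAt (fun s => cost (p s) (q s)) ((b - a) * (ip (q 0) (vel e x u b) (dv q 0) -
      ip (p 0) (vel e x u a) (dv p 0))) 0 ∧ dist (p 0) (q 0) = b - a := by
  have hT : 0 < b - a := sub_pos.2 hab
  have h1 : nm (p 0) ((b - a) • vel e x u a) = b - a := by
    rw [nm_smul, hp0, nm_vel F, hu, mul_one, abs_of_pos hT]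
  have h2 : q 0 = e (p 0) ((b - a) • vel e x u a : E) := by
    have h3 := gam_flow F x u a (b - a)
    rw [add_sub_cancel] at h3
    rw [hp0, hq0]
    exact h3.symm
  have h1' : nm (q 0) (-((b - a) • vel e x u b) : E) = b - a := by
    rw [symm_nm_neg, nm_smul, hq0, nm_vel F, hu, mul_one, abs_of_pos hT]
  have h2' : p 0 = e (q 0) (-((b - a) • vel e x u b) : E) := by
    have h3 := gam_flow F x u b (-(b - a))
    rw [neg_sub, add_sub_cancel] at h3
    rw [hp0, hq0, ← h3, ← neg_smul, neg_sub]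
    rfl
  have hd : dist (p 0) (q 0) = b - a := by
    rw [h2]
    exact (hB (p 0) _ (h1.le.trans hbD.le)).trans h1
  have hs : SmoothAt E (p 0) (q 0) := WD3.smoothAt_of_dist_lt F hB (by rw [hd]; exact hbD)
  refine ⟨(hasDerivAt_cost_curves hs hp hq).congr_deriv ?_, hd⟩
  rw [dcost_eq F hB (by rw [h1]; exact hbD) h2, dcost_eq F hB (by rw [h1']; exact hbD) h2',
    ip_neg_left', ip_smul_left', ip_smul_left']
  ring

variable [IsRiemannianManifold 𝓘(ℝ, E) M]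

/-- slices of a smooth two parameter family -/
theorem contMDiff_slice {H : ℝ × ℝ → M} (hH : ContMDiff 𝓘(ℝ, ℝ × ℝ) 𝓘(ℝ, E) ∞ H) (s : ℝ) :
    ContMDiff 𝓘(ℝ, ℝ) 𝓘(ℝ, E) ∞ (fun t => H (s, t)) := by
  have h : ContMDiff 𝓘(ℝ, ℝ) 𝓘(ℝ, ℝ × ℝ) ∞ (fun t : ℝ => (s, t)) :=
    (contDiff_const.prodMk contDiff_id).contMDiff
  exact hH.comp h

theorem contMDiff_slice' {H : ℝ × ℝ → M} (hH : ContMDiff 𝓘(ℝ, ℝ × ℝ) 𝓘(ℝ, E) ∞ H) (t : ℝ) :
    ContMDiff 𝓘(ℝ, ℝ) 𝓘(ℝ, E) ∞ (fun s => H (s, t)) := by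
  have h : ContMDiff 𝓘(ℝ, ℝ) 𝓘(ℝ, ℝ × ℝ) ∞ (fun s : ℝ => (s, t)) :=
    (contDiff_id.prodMk contDiff_const).contMDiff
  exact hH.comp h

/-- the energy density of a smooth family of curves is smooth -/
theorem contDiff_en {H : ℝ × ℝ → M} (hH : ContMDiff 𝓘(ℝ, ℝ × ℝ) 𝓘(ℝ, E) ∞ H) :
    ContDiff ℝ ∞ (fun p : ℝ × ℝ => en (E := E) (fun t => H (p.1, t)) p.2) := by
  rw [contDiff_iff_contDiffAt]
  intro p
  have h0 : ContDiff ℝ ∞ (fun q : (ℝ × ℝ) × ℝ => (q.1.1, q.2)) := by fun_prop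
  have h1 : ContMDiffAt 𝓘(ℝ, (ℝ × ℝ) × ℝ) 𝓘(ℝ, E) ∞ (fun q : (ℝ × ℝ) × ℝ => H (q.1.1, q.2))
      (p, p.2) :=
    ContMDiffAt.comp (p, p.2) hH.contMDiffAt h0.contMDiff.contMDiffAt
  exact (SmV_dv (H := fun (q : ℝ × ℝ) t => H (q.1, t)) (τ := fun y : ℝ × ℝ => y.2) (s := p) h1
    contDiffAt_snd).norm_sq.div_const 2

/-- **First variation formula** -/
theorem first_var (F : Facts e) {D : ℝ} (hB : InjGE e D) {x : M} {u : E}
    (hu : nm x u = 1) {a b : ℝ} (hab : a < b) (hbD : b - a < D) {H : ℝ × ℝ → M}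
    (hH : ContMDiff 𝓘(ℝ, ℝ × ℝ) 𝓘(ℝ, E) ∞ H) (h0 : ∀ t, H (0, t) = gam e x u t) :
    ∫ t in a..b, deriv (fun s => en (E := E) (fun t => H (s, t)) t) 0 =
      ip (gam e x u b) (vel e x u b) (dv (fun s => H (s, b)) 0) -
        ip (gam e x u a) (vel e x u a) (dv (fun s => H (s, a)) 0) := by
  have hT : 0 < b - a := sub_pos.2 hab
  have hg := contDiff_en (E := E) hH
  have hE := hasDerivAt_int (g := fun p : ℝ × ℝ => en (E := E) (fun t => H (p.1, t)) p.2)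
    isOpen_univ ((hg.of_le (by simp)).contDiffOn) a b (mem_univ (0 : ℝ))
  have hC := hasDerivAt_cost_gam F hB hu hab hbD
    ((contMDiff_slice' hH a).contMDiffAt.mdifferentiableAt (by simp))
    ((contMDiff_slice' hH b).contMDiffAt.mdifferentiableAt (by simp)) (h0 a) (h0 b)
  obtain ⟨hC1, hC2⟩ := hC
  have hC' := hC1.div_const (b - a)
  have hE0 : ∫ t in a..b, en (E := E) (fun t => H (0, t)) t = (b - a) / 2 := by
    have h1 : ∀ t, en (E := E) (fun t => H (0, t)) t = 1 / 2 := by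
      intro t
      unfold en
      have h2 : (fun t => H (0, t)) = gam e x u := funext h0
      have h3 : dv (E := E) (fun t => H (0, t)) t = vel e x u t := by
        rw [h2]
        exact mfderiv_gam F.isExp x u t
      rw [h3]
      simp only [h0]
      rw [nm_vel F, hu]
      norm_num
    simp only [h1]
    rw [intervalIntegral.integral_const, smul_eq_mul]
    ring
  have hmin : IsLocalMin (fun s => (∫ t in a..b, en (E := E) (fun t => H (s, t)) t) -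
      cost (H (s, a)) (H (s, b)) / (b - a)) 0 := by
    refine Eventually.of_forall fun s => ?_
    have h1 := cost_le_energy (E := E) (contMDiff_slice hH s) hab
    have h2 : (∫ t in a..b, en (E := E) (fun t => H (0, t)) t) -
      cost (H (0, a)) (H (0, b)) / (b - a) = 0 := by
      rw [hE0]
      unfold cost
      rw [hC2]
      field_simp
      ring
    change (∫ t in a..b, en (E := E) (fun t => H (0, t)) t) -
      cost (H (0, a)) (H (0, b)) / (b - a) ≤ (∫ t in a..b, en (E := E) (fun t => H (s, t)) t) -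
      cost (H (s, a)) (H (s, b)) / (b - a)
    rw [h2]
    exact sub_nonneg.2 h1
  have h3 := hmin.hasDerivAt_eq_zero (hE.sub hC')
  rw [mul_div_cancel_left₀ _ hT.ne'] at h3
  rw [← h0 a, ← h0 b]
  exact sub_eq_zero.1 h3

end

end Vale.Agent.P231.H997
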