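import Vale.Agent.P231.H703.Nullity

/-! P231: the pairing lemma. If the nullity at distance `D` is one, the kernel vectors `p` at `s` and
`q` at `t`, `s < t < s + D`, satisfy `q · A s t p ≠ 0`: otherwise the geodesic segment of length
`t + D - s` would have index two. -/

open Matrix Set Filter Topology Module
open scoped ContDiff

set_option linter.unusedSectionVars false

namespace Vale.Agent.P231.H997

noncomputable section

open Vale.Agent.P231 Vale.Agent.P231.H703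

variable {ι : Type*} [Fintype ι] [DecidableEq ι] {D : ℝ} {A : ℝ → ℝ → Matrix ι ι ℝ}

/-- the quadratic form of `Hc` is strictly increasing on intervals of nonsingularity -/
theorem Hc_quad_lt' (h : JData D A) {a s t t' : ℝ} (ha : IsUnit (A a s)) (h2 : t < t')
    (hu : ∀ τ ∈ Icc t t', IsUnit (A a τ)) {x : ι → ℝ} (hx : x ≠ 0) :
    x ⬝ᵥ (Hc A a s t *ᵥ x) < x ⬝ᵥ (Hc A a s t' *ᵥ x) := by
  have hd : ∀ τ ∈ Icc t t', HasDerivAt (fun τ => x ⬝ᵥ (Hc A a s τ *ᵥ x))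
      (x ⬝ᵥ ((Gm A a τ)⁻¹ *ᵥ x)) τ := fun τ hτ =>
    Bounds.quad_hasDerivAt (fun i j => h.Hc_hasDerivAt ha (hu τ hτ) i j) x
  obtain ⟨ξ, hξ, hξ'⟩ := exists_hasDerivAt_eq_slope (fun τ => x ⬝ᵥ (Hc A a s τ *ᵥ x))
    (fun τ => x ⬝ᵥ ((Gm A a τ)⁻¹ *ᵥ x)) h2
    (fun τ hτ => (hd τ hτ).continuousAt.continuousWithinAt)
    (fun τ hτ => hd τ (Ioo_subset_Icc_self hτ))
  have h4 : 0 < x ⬝ᵥ ((Gm A a ξ)⁻¹ *ᵥ x) := by
    have := (h.Gm_posDef (hu ξ (Ioo_subset_Icc_self hξ))).inv.dotProduct_mulVec_pos hx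
    simpa only [gt_iff_lt, star_trivial] using this
  rw [hξ', div_pos_iff] at h4
  rcases h4 with h4 | h4
  · linarith [h4.1]
  · exact absurd h4.2 (by linarith only [h2])

/-- symmetric matrices -/
theorem dot_mulVec_comm {H : Matrix ι ι ℝ} (hH : Hᵀ = H) (x y : ι → ℝ) :
    x ⬝ᵥ (H *ᵥ y) = y ⬝ᵥ (H *ᵥ x) := by
  rw [dotProduct_mulVec, ← mulVec_transpose, hH, dotProduct_comm]

theorem pair_ne_zero (h : JData D A) {s t : ℝ} (hst : s < t) (htD : t < s + D)
    (hn : nul A D s ≤ 1) {p q : ι → ℝ} (hp : p ≠ 0) (hq : q ≠ 0)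
    (hp0 : A s (s + D) *ᵥ p = 0) (hq0 : A t (t + D) *ᵥ q = 0) : q ⬝ᵥ (A s t *ᵥ p) ≠ 0 := by
  intro h0
  obtain ⟨a, ha1, ha2⟩ := exists_between htD
  have hsa : s < a := hst.trans ha1
  have hD := h.pos
  -- units
  have usa : IsUnit (A s a) := h.unit s a hsa ha2
  have uas : IsUnit (A a s) := h.unit_symm usa
  have uta : IsUnit (A t a) := h.unit t a ha1 (by linarith)
  have uat : IsUnit (A a t) := h.unit_symm uta
  have uasD : IsUnit (A a (s + D)) := h.unit a _ ha2 (by linarith)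
  have uatD : IsUnit (A a (t + D)) := h.unit a _ (by linarith) (by linarith)
  have uleft : ∀ τ ∈ Icc s t, IsUnit (A a τ) := fun τ hτ =>
    h.unit_symm (h.unit τ a (by linarith [hτ.2]) (by linarith [hτ.1]))
  have uright : ∀ τ ∈ Icc (s + D) (t + D), IsUnit (A a τ) := fun τ hτ =>
    h.unit a τ (by linarith [hτ.1]) (by linarith [hτ.2])
  have das := (Matrix.isUnit_iff_isUnit_det _).1 uas
  have dat := (Matrix.isUnit_iff_isUnit_det _).1 uat
  -- the vectors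
  set x := (A a s)ᵀ *ᵥ p with hx
  set y := (A a t)ᵀ *ᵥ q with hy
  have inj : ∀ {B : Matrix ι ι ℝ}, IsUnit B → ∀ z : ι → ℝ, z ≠ 0 → Bᵀ *ᵥ z ≠ 0 := by
    intro B hB z hz h1
    have h2 := Matrix.mulVec_injective_iff_isUnit.2 ((Matrix.isUnit_transpose _).2 hB)
    exact hz (h2 (h1.trans (mulVec_zero _).symm))
  have hx0 : x ≠ 0 := inj uas p hp
  have hy0 : y ≠ 0 := inj uat q hq
  have ex : ((A a s)⁻¹)ᵀ *ᵥ x = p := by
    rw [hx, mulVec_mulVec, ← Matrix.transpose_mul, Matrix.mul_nonsing_inv _ das,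
      Matrix.transpose_one, one_mulVec]
  have ey : ((A a t)⁻¹)ᵀ *ᵥ y = q := by
    rw [hy, mulVec_mulVec, ← Matrix.transpose_mul, Matrix.mul_nonsing_inv _ dat,
      Matrix.transpose_one, one_mulVec]
  have k1 : Hc A a s (s + D) *ᵥ x = 0 := by
    unfold Hc
    rw [← mulVec_mulVec, ex, ← mulVec_mulVec, hp0, mulVec_zero]
  have k2 : Hc A a t (t + D) *ᵥ y = 0 := by
    unfold Hc
    rw [← mulVec_mulVec, ey, ← mulVec_mulVec, hq0, mulVec_zero]
  have k3 : y ⬝ᵥ (Hc A a s t *ᵥ x) = 0 := by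
    unfold Hc
    rw [← mulVec_mulVec, ex, ← mulVec_mulVec, hy, mulVec_transpose, ← dotProduct_mulVec,
      mulVec_mulVec, Matrix.mul_nonsing_inv _ dat, one_mulVec, h0]
  -- additivity
  have add : ∀ {b c d : ℝ}, IsUnit (A a b) → IsUnit (A a c) → IsUnit (A a d) →
      Hc A a b d = Hc A a b c + Hc A a c d := fun hb hc hd => h.Kc_add hc hb hd
  set H := Hc A a s (t + D) with hH
  have hHs : Hᵀ = H := h.Hc_symm uas uatD
  have q1 : 0 < x ⬝ᵥ (H *ᵥ x) := by
    have := Hc_quad_lt' h uas (by linarith : s + D < t + D) uright hx0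
    rwa [k1, dotProduct_zero] at this
  have q2 : 0 < y ⬝ᵥ (H *ᵥ y) := by
    have h1 := Hc_quad_lt' h uas hst uleft hy0
    have h2 : Hc A a s s *ᵥ y = 0 := by
      unfold Hc
      rw [h.diag, Matrix.mul_zero, Matrix.zero_mul, zero_mulVec]
    rw [h2, dotProduct_zero] at h1
    rw [hH, add uas uat uatD, add_mulVec, k2, add_zero]
    exact h1
  have q3 : y ⬝ᵥ (H *ᵥ x) = 0 := by
    rw [hH, add uas uat uatD, add_mulVec, dotProduct_add, k3, zero_add,
      dot_mulVec_comm (h.Hc_symm uat uatD), k2, dotProduct_zero]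
  have q4 : x ⬝ᵥ (H *ᵥ y) = 0 := by rw [dot_mulVec_comm hHs, q3]
  -- the plane
  have hquad : ∀ c d : ℝ, (c • x + d • y) ⬝ᵥ (H *ᵥ (c • x + d • y)) =
      c ^ 2 * (x ⬝ᵥ (H *ᵥ x)) + d ^ 2 * (y ⬝ᵥ (H *ᵥ y)) := by
    intro c d
    rw [mulVec_add, mulVec_smul, mulVec_smul, add_dotProduct, dotProduct_add, dotProduct_add,
      smul_dotProduct, smul_dotProduct, smul_dotProduct, smul_dotProduct, dotProduct_smul,
      dotProduct_smul, dotProduct_smul, dotProduct_smul, q3, q4]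
    simp only [smul_eq_mul]
    ring
  have hzero : ∀ c d : ℝ, (c • x + d • y) ⬝ᵥ (H *ᵥ (c • x + d • y)) ≤ 0 → c = 0 ∧ d = 0 := by
    intro c d hcd
    rw [hquad] at hcd
    have h1 : 0 ≤ c ^ 2 * (x ⬝ᵥ (H *ᵥ x)) := mul_nonneg (sq_nonneg c) q1.le
    have h2 : 0 ≤ d ^ 2 * (y ⬝ᵥ (H *ᵥ y)) := mul_nonneg (sq_nonneg d) q2.le
    have h3 : c ^ 2 * (x ⬝ᵥ (H *ᵥ x)) = 0 := by linarith
    have h4 : d ^ 2 * (y ⬝ᵥ (H *ᵥ y)) = 0 := by linarith
    exact ⟨by simpa [q1.ne'] using h3, by simpa [q2.ne'] using h4⟩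
  have hli : LinearIndependent ℝ ![x, y] := by
    rw [LinearIndependent.pair_iff]
    intro c d hcd
    refine hzero c d ?_
    rw [hcd, mulVec_zero, dotProduct_zero]
  set W := Submodule.span ℝ (Set.range ![x, y]) with hW
  have hWf : finrank ℝ W = 2 := by
    rw [hW, finrank_span_eq_card hli, Fintype.card_fin]
  have hWp : PosOn H W := by
    intro z hz hz0
    rw [hW, Matrix.range_cons, Matrix.range_cons, Matrix.range_empty, Set.union_empty,
      Set.singleton_union, Submodule.mem_span_pair] at hz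
    obtain ⟨c, d, rfl⟩ := hz
    by_contra hcon
    obtain ⟨h1, h2⟩ := hzero c d (not_lt.1 hcon)
    rw [h1, h2, zero_smul, zero_smul, add_zero] at hz0
    exact hz0 rfl
  have h5 := finrank_le_nul h hsa ha2 (by linarith : s + D < t + D) (by linarith) hWp
  rw [hWf] at h5
  omega

end

end Vale.Agent.P231.H997
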