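import Vale.Agent.P231.W.Defs
import Vale.Agent.P231.H775.SmV

/-!
# P231, block C: calculus of velocities, for plots and for maps of diffeological spaces
-/

set_option maxSynthPendingDepth 3
set_option linter.unusedSectionVars false
set_option linter.unusedVariables false

open Bundle Manifold Set Filter Module MeasureTheory
open scoped ContDiff Manifold Topology

namespace Vale.Agent.P231.H997

noncomputable section

open Vale.Agent.P234 Vale.Agent.P231 Vale.Agent.P231.H775 Vale.Agent.P231.Fm Vale.Agent.P231.W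

variable {E : Type*} [NormedAddCommGroup E] [NormedSpace ℝ E]
  {M : Type*} [MetricSpace M] [ChartedSpace E M]

/-- the raw velocity of a curve -/
def dv (c : ℝ → M) (t : ℝ) : E := mfderiv 𝓘(ℝ, ℝ) 𝓘(ℝ, E) c t (1 : ℝ)

theorem dv_congr {c c' : ℝ → M} {t : ℝ} (h : c =ᶠ[𝓝 t] c') : dv (E := E) c t = dv c' t := by
  have h3 : (mfderiv 𝓘(ℝ, ℝ) 𝓘(ℝ, E) c t : ℝ →L[ℝ] E) = mfderiv 𝓘(ℝ, ℝ) 𝓘(ℝ, E) c' t :=
    h.mfderiv_eq
  exact DFunLike.congr_fun h3 1

/-- change of parameter -/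
theorem dv_comp {c : ℝ → M} {t : ℝ} {g : ℝ → ℝ} {g' : ℝ}
    (hc : MDifferentiableAt 𝓘(ℝ, ℝ) 𝓘(ℝ, E) c (g t)) (hg : HasDerivAt g g' t) :
    dv (E := E) (fun s => c (g s)) t = g' • dv (E := E) c (g t) := by
  have h1 : MDifferentiableAt 𝓘(ℝ, ℝ) 𝓘(ℝ, ℝ) g t := hg.differentiableAt.mdifferentiableAt
  have h2 := mfderiv_comp_apply t (I'' := 𝓘(ℝ, E)) (g := c) (f := g) hc h1 (1 : ℝ)
  have h3 : mfderiv 𝓘(ℝ, ℝ) 𝓘(ℝ, ℝ) g t (1 : ℝ) = g' • (1 : ℝ) := by
    rw [mfderiv_eq_fderiv, smul_eq_mul, mul_one]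
    exact hg.deriv
  rw [h3] at h2
  refine Eq.trans h2 ?_
  exact (mfderiv 𝓘(ℝ, ℝ) 𝓘(ℝ, E) c (g t)).map_smul g' (1 : ℝ)

section

variable [IsManifold 𝓘(ℝ, E) ∞ M]

/-- the velocity in a chart -/
theorem crd_dv {c : ℝ → M} {t : ℝ} (hc : MDifferentiableAt 𝓘(ℝ, ℝ) 𝓘(ℝ, E) c t) (x₀ : M)
    (hx : c t ∈ (chartAt E x₀).source) :
    crd x₀ (c t) (dv (E := E) c t) = deriv (fun s => extChartAt 𝓘(ℝ, E) x₀ (c s)) t := by
  have h0 : IsManifold 𝓘(ℝ, E) 1 M := IsManifold.of_le (n := ∞) (by simp)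
  have h1 : crd (E := E) x₀ (c t) = mfderiv 𝓘(ℝ, E) 𝓘(ℝ, E) (extChartAt 𝓘(ℝ, E) x₀) (c t) :=
    TangentBundle.continuousLinearMapAt_trivializationAt hx
  have h2 : MDifferentiableAt 𝓘(ℝ, E) 𝓘(ℝ, E) (extChartAt 𝓘(ℝ, E) x₀) (c t) :=
    mdifferentiableAt_extChartAt hx
  have h3 := mfderiv_comp_apply t (I'' := 𝓘(ℝ, E)) (g := extChartAt 𝓘(ℝ, E) x₀) (f := c) h2 hc
    (1 : ℝ)
  rw [h1]
  refine Eq.trans h3.symm ?_
  rw [mfderiv_eq_fderiv]
  rfl

end

section Plot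

variable [FiniteDimensional ℝ E] [IsManifold 𝓘(ℝ, E) ∞ M]
  [RiemannianBundle (fun x : M => TangentSpace 𝓘(ℝ, E) x)]
  [IsContMDiffRiemannianBundle 𝓘(ℝ, E) ∞ E (fun x : M => TangentSpace 𝓘(ℝ, E) x)]
  {V : Type*} [NormedAddCommGroup V] [NormedSpace ℝ V]

/-- the velocity of a smooth family of curves is a smooth vector field -/
theorem SmV_dv {H : V → ℝ → M} {s : V} {τ : V → ℝ}
    (hH : ContMDiffAt 𝓘(ℝ, V × ℝ) 𝓘(ℝ, E) ∞ (fun p : V × ℝ => H p.1 p.2) (s, τ s))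
    (hτ : ContDiffAt ℝ ∞ τ s) : SmV (fun y => H y (τ y)) (fun y => dv (E := E) (H y) (τ y)) s := by
  have h0 : IsManifold 𝓘(ℝ, E) 1 M := IsManifold.of_le (n := ∞) (by simp)
  have hq : ContDiffAt ℝ ∞ (fun y => (y, τ y)) s := contDiffAt_id.prodMk hτ
  have hb : ContMDiffAt 𝓘(ℝ, V) 𝓘(ℝ, E) ∞ (fun y => H y (τ y)) s :=
    ContMDiffAt.comp s hH hq.contMDiffAt
  have hsrc : H s (τ s) ∈ (extChartAt 𝓘(ℝ, E) (H s (τ s))).source := mem_extChartAt_source _
  refine (smV_iff (f := fun y => H y (τ y)) (H s (τ s)) hsrc).2 ⟨hb, ?_⟩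
  have hg : ContDiffAt ℝ ∞ (fun p : V × ℝ => extChartAt 𝓘(ℝ, E) (H s (τ s)) (H p.1 p.2))
      (s, τ s) := by
    have h1 : ContMDiffAt 𝓘(ℝ, V × ℝ) 𝓘(ℝ, E) ∞
        (fun p : V × ℝ => extChartAt 𝓘(ℝ, E) (H s (τ s)) (H p.1 p.2)) (s, τ s) :=
      (contMDiffAt_extChartAt (x := H s (τ s))).comp (s, τ s) hH
    exact h1.contDiffAt
  have hg1 : ContDiffAt ℝ ∞ (fun y => fderiv ℝ
      (fun p : V × ℝ => extChartAt 𝓘(ℝ, E) (H s (τ s)) (H p.1 p.2)) (y, τ y) (0, 1)) s := by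
    have h1 : ContDiffAt ℝ ∞ (fderiv ℝ
      (fun p : V × ℝ => extChartAt 𝓘(ℝ, E) (H s (τ s)) (H p.1 p.2))) (s, τ s) :=
      hg.fderiv_right (m := ∞) (by simp)
    exact (h1.comp s hq).clm_apply contDiffAt_const
  refine hg1.congr_of_eventuallyEq ?_
  have hH1 : ∀ᶠ p in 𝓝 (s, τ s), ContMDiffAt 𝓘(ℝ, V × ℝ) 𝓘(ℝ, E) 1
      (fun p : V × ℝ => H p.1 p.2) p :=
    (contMDiffAt_iff_contMDiffAt_nhds (by simp)).1 (hH.of_le (by simp : (1 : WithTop ℕ∞) ≤ ∞))
  have hg2 : ∀ᶠ p in 𝓝 (s, τ s), ContDiffAt ℝ 1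
      (fun p : V × ℝ => extChartAt 𝓘(ℝ, E) (H s (τ s)) (H p.1 p.2)) p :=
    (hg.of_le (by simp : (1 : WithTop ℕ∞) ≤ ∞)).eventually (by simp)
  have hsrc2 : ∀ᶠ p in 𝓝 (s, τ s), H p.1 p.2 ∈ (chartAt E (H s (τ s))).source := by
    refine hH.continuousAt.eventually ((chartAt E (H s (τ s))).open_source.mem_nhds ?_)
    exact mem_chart_source E _
  filter_upwards [hq.continuousAt.eventually (hH1.and (hg2.and hsrc2))] with y hy
  obtain ⟨h1, h2, h3⟩ := hy
  have hin : MDifferentiableAt 𝓘(ℝ, ℝ) 𝓘(ℝ, V × ℝ) (fun t : ℝ => (y, t)) (τ y) :=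
    (contDiff_const.prodMk contDiff_id : ContDiff ℝ 1 (fun t : ℝ => (y, t))).contDiffAt.contMDiffAt.mdifferentiableAt
      (by simp)
  have h4 : MDifferentiableAt 𝓘(ℝ, ℝ) 𝓘(ℝ, E) (H y) (τ y) :=
    (h1.mdifferentiableAt (by simp)).comp (τ y) hin
  have h5 : H y (τ y) ∈ (chartAt E (H s (τ s))).source := h3
  rw [crd_dv h4 _ h5]
  have h6 : HasDerivAt (fun t : ℝ => (y, t)) ((0 : V), (1 : ℝ)) (τ y) :=
    (hasDerivAt_const (τ y) y).prodMk (hasDerivAt_id (τ y))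
  have h7 := (h2.differentiableAt (by simp)).hasFDerivAt.comp_hasDerivAt (τ y) h6
  exact h7.deriv

end Plot

section Maps

variable {X : Type*} {DX : Dif X}

/-- time derivatives of smooth functions are smooth -/
theorem map_deriv {f : X × ℝ → ℝ} (hf : (DX.prod (Dif.lin ℝ)).Map (Dif.lin ℝ) f) :
    (DX.prod (Dif.lin ℝ)).Map (Dif.lin ℝ) (fun p => deriv (fun t => f (p.1, t)) p.2) := by
  intro V _ _ _ u x h
  have h1 : DX.At (fun y => (u y).1) x := h.1
  have h2 : Sm (fun y => (u y).2) x := h.2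
  have h3 : (DX.prod (Dif.lin ℝ)).At (fun q : V × ℝ => ((u q.1).1, q.2)) (x, (u x).2) :=
    ⟨DX.comp (u := fun y => (u y).1) (g := Prod.fst) (x := (x, (u x).2)) h1
      (Sm.of_contDiff contDiff_fst _), Sm.of_contDiff contDiff_snd _⟩
  have h4 : Sm (fun q : V × ℝ => f ((u q.1).1, q.2)) (x, (u x).2) := hf h3
  have h5 : Sm (fun y : V => (y, (u y).2)) x := (Sm.of_contDiff contDiff_id x).prodMk h2
  have h6 : Sm (fun y : V => fderiv ℝ (fun q : V × ℝ => f ((u q.1).1, q.2)) (y, (u y).2)) x :=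
    Sm.comp (f := fderiv ℝ (fun q : V × ℝ => f ((u q.1).1, q.2))) (g := fun y : V => (y, (u y).2))
      h4.fderiv h5
  have h7 : Sm (fun y : V => fderiv ℝ (fun q : V × ℝ => f ((u q.1).1, q.2)) (y, (u y).2)
      ((0 : V), (1 : ℝ))) x := by
    filter_upwards [h6] with y hy
    exact hy.clm_apply contDiffAt_const
  refine h7.congr ?_
  filter_upwards [h5.continuousAt.eventually h4] with y hy
  have h8 : HasDerivAt (fun t : ℝ => (y, t)) ((0 : V), (1 : ℝ)) (u y).2 :=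
    (hasDerivAt_const _ y).prodMk (hasDerivAt_id _)
  have h9 := (hy.differentiableAt (by simp)).hasFDerivAt.comp_hasDerivAt (u y).2 h8
  exact h9.deriv.symm

/-- time integrals of smooth functions are smooth -/
theorem map_int {f : X × ℝ → ℝ} (hf : (DX.prod (Dif.lin ℝ)).Map (Dif.lin ℝ) f) (c : ℝ) :
    DX.Map (Dif.lin ℝ) (fun x => ∫ t in (0 : ℝ)..c, f (x, t)) := by
  intro V _ _ _ u x h
  obtain ⟨U, hU1, hU2, hU3⟩ := eventually_nhds_iff.1 (DX.open' h)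
  have hg : ContDiffOn ℝ ∞ (fun p : V × ℝ => c * f (u p.1, c * p.2)) (U ×ˢ univ) := by
    intro p hp
    refine ContDiffAt.contDiffWithinAt ?_
    have h1 : DX.At (fun y : V × ℝ => u y.1) p :=
      DX.comp (g := Prod.fst) (hU1 _ hp.1) (Sm.of_contDiff contDiff_fst p)
    have h3 : Sm (fun y : V × ℝ => f (u y.1, c * y.2)) p :=
      hf ⟨h1, Sm.of_contDiff (contDiff_const.mul contDiff_snd) p⟩
    exact contDiffAt_const.mul h3.contDiffAt
  have h := contDiffOn_time hU2 hg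
  have h2 : (fun x => ∫ t in (0 : ℝ)..c, f (x, t)) ∘ u =
      fun y => ∫ t in (0 : ℝ)..1, c * f (u y, c * t) := by
    funext y
    have h3 := intervalIntegral.smul_integral_comp_mul_left (a := 0) (b := 1)
      (fun t => f (u y, t)) c
    rw [mul_zero, mul_one, smul_eq_mul] at h3
    rw [intervalIntegral.integral_const_mul]
    exact h3.symm
  change Sm _ _
  rw [h2]
  exact Sm.of_contDiffOn h hU2 hU3

end Maps

section MapsM

variable [FiniteDimensional ℝ E] [IsManifold 𝓘(ℝ, E) ∞ M]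
  [RiemannianBundle (fun x : M => TangentSpace 𝓘(ℝ, E) x)]
  [IsContMDiffRiemannianBundle 𝓘(ℝ, E) ∞ E (fun x : M => TangentSpace 𝓘(ℝ, E) x)]
  {e : ∀ x : M, TangentSpace 𝓘(ℝ, E) x → M} {X : Type*} {DX : Dif X}

/-- `u` is a smooth vector field along the smooth map `f` -/
def MV (DX : Dif X) (f : X → M) (u : X → E) : Prop := DX.Map (dTM E M) (fun x => tb (f x) (u x))

theorem MV.smV {f : X → M} {w : X → E} (h : MV DX f w) {V : Type} [NormedAddCommGroup V]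
    [NormedSpace ℝ V] [FiniteDimensional ℝ V] {u : V → X} {x : V} (hu : DX.At u x) :
    ∀ᶠ y in 𝓝 x, SmV (fun y => f (u y)) (fun y => (w (u y) : E)) y := h hu

theorem MV.of {f : X → M} {w : X → E} (h : ∀ (V : Type) [NormedAddCommGroup V]
    [NormedSpace ℝ V] [FiniteDimensional ℝ V] (u : V → X) (x : V), DX.At u x →
    SmV (fun y => f (u y)) (fun y => (w (u y) : E)) x) : MV DX f w := by
  intro V _ _ _ u x hu
  have h1 : ∀ᶠ y in 𝓝 x, SmV (fun y => f (u y)) (fun y => (w (u y) : E)) y := by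
    filter_upwards [DX.open' hu] with y hy
    exact h V u y hy
  exact h1

theorem MV.add {f : X → M} {w w' : X → E} (h : MV DX f w) (h' : MV DX f w') :
    MV DX f (fun x => w x + w' x) :=
  MV.of fun V _ _ _ u x hu => (h.smV hu).self_of_nhds.add (h'.smV hu).self_of_nhds

theorem MV.smul {f : X → M} {w : X → E} {c : X → ℝ} (hc : DX.Map (Dif.lin ℝ) c)
    (h : MV DX f w) : MV DX f (fun x => c x • w x) :=
  MV.of fun V _ _ _ u x hu => by
    have h1 : Sm (fun y => c (u y)) x := hc hu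
    exact SmV.smul h1.contDiffAt (h.smV hu).self_of_nhds

theorem MV.exp (he : IsExp e) {f : X → M} {w : X → E} (h : MV DX f w) :
    DX.Map (dM E M) (fun x => e (f x) (w x)) := by
  intro V _ _ _ u x hu
  have h1 : ∀ᶠ y in 𝓝 x, ContMDiffAt 𝓘(ℝ, V) 𝓘(ℝ, E) ∞ (fun y => e (f (u y)) (w (u y))) y := by
    filter_upwards [h.smV hu] with y hy
    exact hy.exp he
  exact h1

theorem MV.nm_sq {f : X → M} {w : X → E} (h : MV DX f w) :
    DX.Map (Dif.lin ℝ) (fun x => nm (f x) (w x) ^ 2) := by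
  intro V _ _ _ u x hu
  have h1 : ∀ᶠ y in 𝓝 x, ContDiffAt ℝ ∞ (fun y => nm (f (u y)) (w (u y)) ^ 2) y := by
    filter_upwards [h.smV hu] with y hy
    exact hy.norm_sq
  exact h1

theorem MV.ip {f : X → M} {w w' : X → E} (h : MV DX f w) (h' : MV DX f w') :
    DX.Map (Dif.lin ℝ) (fun x => ip (f x) (w x) (w' x)) := by
  intro V _ _ _ u x hu
  have h1 : ∀ᶠ y in 𝓝 x, ContDiffAt ℝ ∞ (fun y => P231.ip (f (u y)) (w (u y)) (w' (u y))) y := by
    filter_upwards [h.smV hu, h'.smV hu] with y hy hy'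
    exact hy.inner hy'
  exact h1

theorem MV.comp {Y : Type*} {DY : Dif Y} {f : X → M} {w : X → E} (h : MV DX f w) {g : Y → X}
    (hg : DY.Map DX g) : MV DY (fun y => f (g y)) (fun y => w (g y)) := fun hu => h (hg hu)

/-- the velocity of a smooth family of curves -/
theorem MV_dv {H : X × ℝ → M} (hH : (DX.prod (Dif.lin ℝ)).Map (dM E M) H) :
    MV (E := E) (DX.prod (Dif.lin ℝ)) H (fun p => dv (fun t => H (p.1, t)) p.2) := by
  refine MV.of fun V _ _ _ u x h => ?_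
  have h1 : DX.At (fun y => (u y).1) x := h.1
  have h2 : Sm (fun y => (u y).2) x := h.2
  have h3 : (DX.prod (Dif.lin ℝ)).At (fun q : V × ℝ => ((u q.1).1, q.2)) (x, (u x).2) :=
    ⟨DX.comp (u := fun y => (u y).1) (g := Prod.fst) (x := (x, (u x).2)) h1
      (Sm.of_contDiff contDiff_fst _), Sm.of_contDiff contDiff_snd _⟩
  have h4 : ∀ᶠ q in 𝓝 (x, (u x).2), ContMDiffAt 𝓘(ℝ, V × ℝ) 𝓘(ℝ, E) ∞
      (fun q : V × ℝ => H ((u q.1).1, q.2)) q := hH h3
  exact SmV_dv (H := fun y t => H ((u y).1, t)) (τ := fun y => (u y).2) h4.self_of_nhds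
    h2.contDiffAt

/-- continuity in the fibre -/
theorem MV.cont_fiber {f : X → M} {w : X × ℝ → E}
    (hw : MV (DX.prod (Dif.lin ℝ)) (fun p => f p.1) w) {V : Type} [NormedAddCommGroup V]
    [NormedSpace ℝ V] [FiniteDimensional ℝ V] {u : V → X} {x : V} (hu : DX.At u x) :
    Continuous (fun r : ℝ => w (u x, r)) := by
  rw [continuous_iff_continuousAt]
  intro r
  have h1 := (hw.smV (u := fun r : ℝ => (u x, r)) (x := r)
    ⟨Dif.At_const hu r, Sm.of_contDiff contDiff_id r⟩).self_of_nhds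
  have h3 := ((smV_iff (f := fun _ : ℝ => f (u x)) (f (u x)) (mem_extChartAt_source _)).1 h1).2
  let L : E →L[ℝ] E := vec (f (u x)) (f (u x))
  have h4 : ContinuousAt (fun r : ℝ => L (crd (f (u x)) (f (u x)) (w (u x, r)))) r :=
    L.continuous.continuousAt.comp h3.continuousAt
  refine h4.congr (Eventually.of_forall fun r => ?_)
  exact vec_crd (f (u x)) (mem_extChartAt_source _) _

/-- integrals of smooth vector fields along a map not depending on the parameter -/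
theorem MV_int {f : X → M} {w : X × ℝ → E} (hw : MV (DX.prod (Dif.lin ℝ)) (fun p => f p.1) w)
    (hf : DX.Map (dM E M) f) (c : ℝ) : MV DX f (fun x => ∫ r in (0 : ℝ)..c, w (x, r)) := by
  refine MV.of fun V _ _ _ u x h => ?_
  have : CompleteSpace E := FiniteDimensional.complete ℝ E
  have hfu : ∀ᶠ y in 𝓝 x, ContMDiffAt 𝓘(ℝ, V) 𝓘(ℝ, E) ∞ (fun y => f (u y)) y := hf h
  have hsrc : f (u x) ∈ (extChartAt 𝓘(ℝ, E) (f (u x))).source := mem_extChartAt_source _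
  refine (smV_iff (f := fun y => f (u y)) (f (u x)) hsrc).2 ⟨hfu.self_of_nhds, ?_⟩
  have hsrc2 : ∀ᶠ y in 𝓝 x, f (u y) ∈ (extChartAt 𝓘(ℝ, E) (f (u x))).source :=
    hfu.self_of_nhds.continuousAt.eventually ((isOpen_extChartAt_source _).mem_nhds hsrc)
  obtain ⟨U, hU1, hU2, hU3⟩ := eventually_nhds_iff.1 ((DX.open' h).and hsrc2)
  have hg : ContDiffOn ℝ ∞ (fun p : V × ℝ =>
      c • crd (E := E) (f (u x)) (f (u p.1)) (w (u p.1, c * p.2))) (U ×ˢ univ) := by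
    intro p hp
    refine ContDiffAt.contDiffWithinAt ?_
    have h1 : DX.At (fun y : V × ℝ => u y.1) p :=
      DX.comp (g := Prod.fst) (hU1 _ hp.1).1 (Sm.of_contDiff contDiff_fst p)
    have h3 := (hw.smV (u := fun y : V × ℝ => (u y.1, c * y.2)) (x := p)
      ⟨h1, Sm.of_contDiff (contDiff_const.mul contDiff_snd) p⟩).self_of_nhds
    have h4 := ((smV_iff (f := fun y : V × ℝ => f (u y.1)) (f (u x)) (hU1 _ hp.1).2).1 h3).2
    exact contDiffAt_const.smul h4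
  have h := contDiffOn_time hU2 hg
  have h2 : ∀ y ∈ U, (crd (f (u x)) (f (u y)) (∫ r in (0 : ℝ)..c, w (u y, r) : E) : E) =
      ∫ t in (0 : ℝ)..1, c • (crd (f (u x)) (f (u y)) (w (u y, c * t)) : E) := by
    intro y hy
    have h3 := intervalIntegral.smul_integral_comp_mul_left (a := 0) (b := 1)
      (fun t => w (u y, t)) c
    rw [mul_zero, mul_one] at h3
    have hc : Continuous (fun r : ℝ => w (u y, c * r)) :=
      (hw.cont_fiber (hU1 _ hy).1).comp (continuous_const.mul continuous_id)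
    let L : E →L[ℝ] E := crd (f (u x)) (f (u y))
    have h5 := L.intervalIntegral_comp_comm (μ := volume) (a := 0) (b := 1)
      (hc.intervalIntegrable 0 1)
    change L (∫ r in (0 : ℝ)..c, w (u y, r) : E) = ∫ t in (0 : ℝ)..1, c • L (w (u y, c * t))
    rw [← h3, map_smul, ← h5, intervalIntegral.integral_smul]
  have h4 : ContDiffAt ℝ ∞ (fun y => ∫ t in (0 : ℝ)..1,
      c • crd (E := E) (f (u x)) (f (u y)) (w (u y, c * t))) x := h.contDiffAt (hU2.mem_nhds hU3)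
  refine h4.congr_of_eventuallyEq ?_
  filter_upwards [hU2.mem_nhds hU3] with y hy using h2 y hy

end MapsM

end

end Vale.Agent.P231.H997
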