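import Vale.Agent.P231.H997.SV9

/-!
# P231, block C: first and second derivative of the energy of the push-off at zero
-/

set_option maxSynthPendingDepth 3
set_option linter.unusedSectionVars false
set_option linter.unusedVariables false

open Bundle Manifold Set Filter Module MeasureTheory
open scoped ContDiff Manifold Topology

namespace Vale.Agent.P231.H997

noncomputable section

open Vale.Agent.P234 Vale.Agent.P231 Vale.Agent.P231.H775 Vale.Agent.P231.Fm Vale.Agent.P231.W
open Vale.Agent.P231.WD3 Vale.Agent.P231.WR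

/-- exchange of the integrals over a periodic flow -/
theorem swap_periodic {b : ℝ × ℝ → ℝ} (hb : Continuous b) {D : ℝ} (T : ℝ)
    (hper : ∀ t r, b (t + T, r) = b (t, r)) :
    ∫ t in (0 : ℝ)..T, ∫ r in (0 : ℝ)..D, b (t - r, r) =
      ∫ t in (0 : ℝ)..T, ∫ r in (0 : ℝ)..D, b (t, r) := by
  have hint : ∀ f : ℝ × ℝ → ℝ, Continuous f → ∀ a b c d : ℝ,
      IntegrableOn f (uIoc a b ×ˢ uIoc c d) := by
    intro f hf a b c d
    have h1 : IntegrableOn f (uIcc a b ×ˢ uIcc c d) :=
      hf.continuousOn.integrableOn_compact (isCompact_uIcc.prod isCompact_uIcc)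
    exact h1.mono_set (prod_mono uIoc_subset_uIcc uIoc_subset_uIcc)
  have h1 : ∫ t in (0 : ℝ)..T, ∫ r in (0 : ℝ)..D, b (t - r, r) =
      ∫ r in (0 : ℝ)..D, ∫ t in (0 : ℝ)..T, b (t - r, r) :=
    intervalIntegral_intervalIntegral_swap (F := fun t r => b (t - r, r))
      (hint (fun p => b (p.1 - p.2, p.2)) (hb.comp (by fun_prop)) 0 T 0 D)
  have h2 : ∫ t in (0 : ℝ)..T, ∫ r in (0 : ℝ)..D, b (t, r) =
      ∫ r in (0 : ℝ)..D, ∫ t in (0 : ℝ)..T, b (t, r) :=
    intervalIntegral_intervalIntegral_swap (F := fun t r => b (t, r)) (hint b hb 0 T 0 D)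
  rw [h1, h2]
  refine intervalIntegral.integral_congr fun r _ => ?_
  have h3 := intervalIntegral.integral_comp_sub_right (a := 0) (b := T) (fun t => b (t, r)) r
  refine h3.trans ?_
  have h4 : Function.Periodic (fun t => b (t, r)) T := fun t => hper t r
  have h5 := h4.intervalIntegral_add_eq (0 - r) 0
  rw [zero_add] at h5
  rw [← h5]
  congr 1
  ring

variable {E : Type*} [NormedAddCommGroup E] [NormedSpace ℝ E] [FiniteDimensional ℝ E]
  {M : Type*} [MetricSpace M] [ChartedSpace E M] [IsManifold 𝓘(ℝ, E) ∞ M]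
  [RiemannianBundle (fun x : M => TangentSpace 𝓘(ℝ, E) x)]
  [IsContMDiffRiemannianBundle 𝓘(ℝ, E) ∞ E (fun x : M => TangentSpace 𝓘(ℝ, E) x)]
  {e : ∀ x : M, TangentSpace 𝓘(ℝ, E) x → M}
  [CompactSpace M] [ConnectedSpace M] [IsRiemannianManifold 𝓘(ℝ, E) M]

/-- the squared speed as an energy density -/
theorem sp_eq (F : Facts e) (Y : UT E M → E) (ε : ℝ) (u : UT E M) :
    WC.sp F Y ε u = 2 * en (E := E) (fun t => e (gam e (foot u) (vec' u) t)
      (ε • Y (phi F (u, t)) : E)) 0 := by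
  have h1 : e (gam e (foot u) (vec' u) 0) (ε • Y (phi F (u, 0)) : E) = WC.Cm e Y ε u := by
    have key : ∀ v1 : UT E M, v1 = u → e (foot v1) (ε • Y v1 : E) = WC.Cm e Y ε u := by
      rintro v1 rfl
      rfl
    exact key (phi F (u, 0)) (phi_zero F u)
  unfold WC.sp en
  simp only
  rw [h1]
  change nm (WC.Cm e Y ε u) (WC.vlc F (WC.Cm e Y ε) u) ^ 2 =
    2 * (nm (WC.Cm e Y ε u) (WC.vlc F (WC.Cm e Y ε) u) ^ 2 / 2)
  ring

theorem sp_phi (F : Facts e) {Y : UT E M → E}
    (hY : (dUT E M).Map (dTM E M) (fun v => tb (foot v) (Y v))) (ε : ℝ) (v : UT E M) (t : ℝ) :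
    WC.sp F Y ε (phi F (v, t)) = 2 * en (E := E) (fun t => e (gam e (foot v) (vec' v) t)
      (ε • Y (phi F (v, t)) : E)) t := by
  rw [sp_eq]
  have h2 : ContMDiffAt 𝓘(ℝ, ℝ) 𝓘(ℝ, E) ∞ (fun t =>
        e (gam e (foot v) (vec' v) t) (ε • Y (phi F (v, t)) : E)) t :=
    (SmV.smul contDiffAt_const (smV_line F hY v t)).exp F.isExp
  rw [← en_shift (h2.mdifferentiableAt (by simp))]
  congr 2
  funext s
  have h3 : gam e (foot (phi F (v, t))) (vec' (phi F (v, t))) s =
      gam e (foot v) (vec' v) (s + t) := by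
    have h4 := gm_phi F v t s
    rw [add_comm t s] at h4
    exact h4
  have h5 : phi F (phi F (v, t), s) = phi F (v, s + t) := by
    rw [phi_add, add_comm]
  rw [h3, h5]

theorem contDiff_sp (F : Facts e) {Y : UT E M → E}
    (hY : (dUT E M).Map (dTM E M) (fun v => tb (foot v) (Y v))) (v : UT E M) :
    ContDiff ℝ ∞ (fun p : ℝ × ℝ => WC.sp F Y p.1 (phi F (v, p.2))) := by
  rw [contDiff_iff_contDiffAt]
  intro p
  have h1 : (dUT E M).At (fun p : ℝ × ℝ => phi F (v, p.2)) p :=
    map_phi F (u := fun p : ℝ × ℝ => (v, p.2))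
      ⟨H583.at_const v p, Sm.of_contDiff contDiff_snd _⟩
  have h2 : Sm (fun p : ℝ × ℝ => WC.sp F Y p.1 (phi F (v, p.2))) p :=
    WC.map_sp F hY (u := fun p : ℝ × ℝ => (phi F (v, p.2), p.1))
      ⟨h1, Sm.of_contDiff contDiff_fst _⟩
  exact h2.contDiffAt

/-- the derivatives of the energy -/
theorem deriv_en (F : Facts e) (D : ℝ) {Y : UT E M → E}
    (hY : (dUT E M).Map (dTM E M) (fun v => tb (foot v) (Y v))) (v : UT E M) :
    (∀ x, deriv (fun ε => WC.en F D Y ε v) x =
      ∫ t in (0 : ℝ)..(2 * D), deriv (fun ε => WC.sp F Y ε (phi F (v, t))) x) ∧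
    deriv (deriv (fun ε => WC.en F D Y ε v)) 0 =
      ∫ t in (0 : ℝ)..(2 * D), deriv (deriv (fun ε => WC.sp F Y ε (phi F (v, t)))) 0 := by
  have hg := contDiff_sp F hY v
  have hg1 := contDiff_deriv_fst hg
  have h1 : ∀ x, deriv (fun ε => WC.en F D Y ε v) x =
      ∫ t in (0 : ℝ)..(2 * D), deriv (fun ε => WC.sp F Y ε (phi F (v, t))) x := fun x =>
    (hasDerivAt_int (g := fun p : ℝ × ℝ => WC.sp F Y p.1 (phi F (v, p.2))) isOpen_univ
      ((hg.of_le (by simp)).contDiffOn) 0 (2 * D) (mem_univ x)).deriv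
  refine ⟨h1, ?_⟩
  rw [show deriv (fun ε => WC.en F D Y ε v) = _ from funext h1]
  exact (hasDerivAt_int (g := fun p : ℝ × ℝ =>
    deriv (fun s => WC.sp F Y s (phi F (v, p.2))) p.1) isOpen_univ
      ((hg1.of_le (by simp)).contDiffOn) 0 (2 * D) (mem_univ 0)).deriv

/-- **C3, first half** -/
theorem en_first (F : Facts e) {D : ℝ} (hD : 0 < D) (hB : InjGE e D)
    (hdiam : ∀ p q : M, dist p q ≤ D) {Y : UT E M → E}
    (hY : (dUT E M).Map (dTM E M) (fun v => tb (foot v) (Y v))) (v : UT E M) :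
    deriv (fun ε => WC.en F D Y ε v) 0 = 0 := by
  rw [(deriv_en F D hY v).1 0]
  have h1 := first_zero F hD hB hdiam hY v
  have h2 : ∀ t, deriv (fun ε => WC.sp F Y ε (phi F (v, t))) 0 = 2 * deriv (fun s : ℝ =>
      en (E := E) (fun t => e (gam e (foot v) (vec' v) t) (s • Y (phi F (v, t)) : E)) t) 0 := by
    intro t
    simp only [sp_phi F hY]
    exact deriv_const_mul_field _
  simp only [h2]
  rw [intervalIntegral.integral_const_mul, h1, mul_zero]

/-- the second derivative of the energy -/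
theorem en_second (F : Facts e) {D : ℝ} (hD : 0 < D) (hB : InjGE e D)
    (hdiam : ∀ p q : M, dist p q ≤ D) {w : UT E M → UT E M} (h : IsSec e D w) (v : UT E M) :
    deriv (deriv (fun ε => WC.en F D (WC.Yf F D w) ε v)) 0 =
      2 * ∫ t in (0 : ℝ)..(2 * D), (ip (bar e D (phi F (v, t)))
        (vel e (foot (phi F (v, t))) (vec' (w (phi F (v, t)))) D)
        (WC.Yf F D w (phi F (phi F (v, t), D))) -
        ip (foot (phi F (v, t))) (vec' (w (phi F (v, t)))) (WC.Yf F D w (phi F (v, t)))) := by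
  have hY : (dUT E M).Map (dTM E M) (fun v => tb (foot v) (WC.Yf F D w v)) := H583.map_Yf F h
  rw [(deriv_en F D hY v).2]
  have h2 : ∀ t, deriv (deriv (fun ε => WC.sp F (WC.Yf F D w) ε (phi F (v, t)))) 0 =
      2 * ∫ r in (0 : ℝ)..D, bU F w (WC.Yf F D w) (phi F (v, t - r)) r := by
    intro t
    have h3 : (fun ε => WC.sp F (WC.Yf F D w) ε (phi F (v, t))) = fun ε => 2 * en (E := E)
        (fun s => e (gam e (foot (phi F (v, t))) (vec' (phi F (v, t))) s)
          (ε • WC.Yf F D w (phi F (phi F (v, t), s)) : E)) 0 :=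
      funext fun ε => sp_eq F _ ε _
    rw [h3]
    have h4 : deriv (fun ε : ℝ => 2 * en (E := E)
        (fun s => e (gam e (foot (phi F (v, t))) (vec' (phi F (v, t))) s)
          (ε • WC.Yf F D w (phi F (phi F (v, t), s)) : E)) 0) = fun x => 2 * deriv
        (fun ε : ℝ => en (E := E)
        (fun s => e (gam e (foot (phi F (v, t))) (vec' (phi F (v, t))) s)
          (ε • WC.Yf F D w (phi F (phi F (v, t), s)) : E)) 0) x :=
      funext fun x => deriv_const_mul_field _
    rw [h4]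
    refine (deriv_const_mul_field _).trans ?_
    congr 1
    refine (second_eq F hD hB hdiam h (phi F (v, t))).trans ?_
    refine intervalIntegral.integral_congr fun r _ => ?_
    rw [phi_add, ← sub_eq_add_neg]
  simp only [h2]
  rw [intervalIntegral.integral_const_mul]
  congr 1
  have hb := (contDiff_bU F h hY v).continuous
  have h5 := swap_periodic hb (D := D) (2 * D) (fun t r => by
    simp only
    rw [add_comm t, ← phi_add, phi_per F hD hB hdiam])
  refine h5.trans ?_
  refine intervalIntegral.integral_congr fun t _ => ?_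
  exact bU_formula F hD hB hdiam h hY (phi F (v, t))

end

end Vale.Agent.P231.H997
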