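import Vale.Agent.P231.H997.SV10

/-!
# P231, block C: the sign of the arrival velocity of the section
-/

set_option maxSynthPendingDepth 3
set_option linter.unusedSectionVars false
set_option linter.unusedVariables false

open Bundle Manifold Set Filter Module MeasureTheory
open scoped ContDiff Manifold Topology

namespace Vale.Agent.P231.H997

noncomputable section

open Vale.Agent.P234 Vale.Agent.P231 Vale.Agent.P231.H775 Vale.Agent.P231.Fm Vale.Agent.P231.W
open Vale.Agent.P231.WD3 Vale.Agent.P231.WR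

variable {E : Type*} [NormedAddCommGroup E] [NormedSpace ℝ E] [FiniteDimensional ℝ E]
  {M : Type*} [MetricSpace M] [ChartedSpace E M] [IsManifold 𝓘(ℝ, E) ∞ M]
  [RiemannianBundle (fun x : M => TangentSpace 𝓘(ℝ, E) x)]
  [IsContMDiffRiemannianBundle 𝓘(ℝ, E) ∞ E (fun x : M => TangentSpace 𝓘(ℝ, E) x)]
  {e : ∀ x : M, TangentSpace 𝓘(ℝ, E) x → M}

/-- the derivative of the rotated geodesics is the Jacobi field -/
theorem dv_rot (F : Facts e) (x : M) (u w₀ : E) (t : ℝ) :
    dv (E := E) (fun a => gam e x (rv0 u w₀ a) t) 0 = jf e x u 0 t w₀ := by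
  let u' : TangentSpace 𝓘(ℝ, E) x := u
  let w' : TangentSpace 𝓘(ℝ, E) x := w₀
  have g2 : HasDerivAt (fun a => Real.cos a) 0 0 := by
    have := Real.hasDerivAt_cos 0
    rwa [Real.sin_zero, neg_zero] at this
  have g3 : HasDerivAt (fun a => Real.sin a) 1 0 := by
    have := Real.hasDerivAt_sin 0
    rwa [Real.cos_zero] at this
  have g4 : HasDerivAt (fun a => t • (Real.cos a • u' + Real.sin a • w')) (t • w') 0 := by
    have h4 := ((g2.smul_const u').add (g3.smul_const w')).const_smul t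
    rw [zero_smul, zero_add, one_smul] at h4
    exact h4
  have g5 := mfderiv_exp_curve F.isExp x g4
  have g6 : (t • (Real.cos 0 • u' + Real.sin 0 • w') :
      TangentSpace 𝓘(ℝ, E) x) = t • u' := by
    rw [Real.cos_zero, Real.sin_zero, one_smul, zero_smul, add_zero]
  have h00 : jf e x u 0 t w₀ = t • dE e x (t • u) w₀ := by
    unfold jf
    rw [gam_zero F.isExp, vel_zero F.isExp, sub_zero]
  rw [h00]
  refine g5.trans ?_
  have g8 : (dE e x (t • (Real.cos 0 • u' + Real.sin 0 • w') :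
    TangentSpace 𝓘(ℝ, E) x) (t • w') : E) = dE e x (t • u : E) (t • w₀ : E) :=
    congrArg (fun z : E => dE e x z (t • w₀ : E)) g6
  rw [g8, dE_smul]

variable [IsRiemannianManifold 𝓘(ℝ, E) M]

/-- the derivative of the Jacobi field at the far end -/
theorem jac_deriv_end (F : Facts e) {D : ℝ} {x : M} {u w₀ : E}
    (hbar : ∀ b, gam e x (rv0 u w₀ b) D = gam e x u D)
    (hvel : ∀ b, vel e x (rv0 u w₀ b) D = Real.cos b • vel e x u D + Real.sin b • vel e x w₀ D) :
    HasDerivAt (crc (gam e x u D) (gam e x u) (fun r => jf e x u 0 r w₀))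
      (crd (gam e x u D) (gam e x u D) (vel (E := E) e x w₀ D)) D := by
  let Λ : ℝ × ℝ → E := fun p => extChartAt 𝓘(ℝ, E) (gam e x u D) (gam e x (rv0 u w₀ p.1) p.2)
  have hrot := contMDiff_rot F.isExp x u w₀
  have h0 : gam e x (rv0 u w₀ 0) D = gam e x u D := by rw [rv0_zero]
  have hΛ : ContDiffAt ℝ ∞ Λ (0, D) := by
    have h1 : ContMDiffAt 𝓘(ℝ, ℝ × ℝ) 𝓘(ℝ, E) ∞ Λ (0, D) := by
      have h2 : ContMDiffAt 𝓘(ℝ, E) 𝓘(ℝ, E) ∞ (extChartAt 𝓘(ℝ, E) (gam e x u D))
          (gam e x (rv0 u w₀ 0) D) := by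
        rw [h0]
        exact contMDiffAt_extChartAt
      exact ContMDiffAt.comp ((0 : ℝ), D) h2 hrot.contMDiffAt
    exact h1.contDiffAt
  have hγ : ContMDiff 𝓘(ℝ, ℝ) 𝓘(ℝ, E) ∞ (gam e x u) := contMDiff_gam F.isExp x u
  have hsrc2 : ∀ᶠ s in 𝓝 D, gam e x u s ∈ (chartAt E (gam e x u D)).source :=
    hγ.continuous.continuousAt.eventually ((chartAt E (gam e x u D)).open_source.mem_nhds
      (mem_chart_source E _))
  have hj : ∀ᶠ s in 𝓝 D, HasDerivAt (fun a => Λ (a, s))
      ((1 : ℝ) • crc (gam e x u D) (gam e x u) (fun r => jf e x u 0 r w₀) s) 0 := by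
    filter_upwards [hsrc2] with s hs
    have hc : ContMDiff 𝓘(ℝ, ℝ) 𝓘(ℝ, E) ∞ (fun a => gam e x (rv0 u w₀ a) s) :=
      contMDiff_slice' hrot s
    have hs' : gam e x (rv0 u w₀ 0) s ∈ (chartAt E (gam e x u D)).source := by
      rw [rv0_zero]
      exact hs
    have h1 := crd_dv (c := fun a => gam e x (rv0 u w₀ a) s) (t := 0)
      (hc.contMDiffAt.mdifferentiableAt (by simp)) (gam e x u D) hs'
    have h2 : DifferentiableAt ℝ (fun a => Λ (a, s)) 0 := by
      have h3 : ContMDiffAt 𝓘(ℝ, ℝ) 𝓘(ℝ, E) ∞ (fun a => Λ (a, s)) 0 :=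
        (contMDiffAt_extChartAt' hs').comp (0 : ℝ) hc.contMDiffAt
      exact h3.contDiffAt.differentiableAt (by simp)
    have h4 := h2.hasDerivAt
    refine h4.congr_deriv ?_
    rw [one_smul]
    refine h1.symm.trans ?_
    rw [dv_rot F]
    unfold crc
    simp only
    rw [rv0_zero]
  obtain ⟨j', hj1, hj2⟩ := jet_deriv one_ne_zero hΛ hj
  rw [one_smul] at hj2
  have h5 : HasDerivAt (fun a => fderiv ℝ Λ (a, D) (0, 1)) j' 0 :=
    (ContinuousLinearMap.snd ℝ E E).hasFDerivAt.comp_hasDerivAt (0 : ℝ) hj2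
  -- the velocity at the far end
  have h6 : (fun a => fderiv ℝ Λ (a, D) (0, 1)) =ᶠ[𝓝 0] fun a =>
      Real.cos a • (crd (gam e x u D) (gam e x u D) (vel (E := E) e x u D) : E) +
        Real.sin a • (crd (gam e x u D) (gam e x u D) (vel (E := E) e x w₀ D) : E) := by
    have hΛd : ∀ᶠ p in 𝓝 ((0 : ℝ), D), DifferentiableAt ℝ Λ p := by
      filter_upwards [(hΛ.of_le (by simp : (1 : WithTop ℕ∞) ≤ ∞)).eventually (by simp)] with p hp
      exact hp.differentiableAt (by simp)
    have hb0 : Tendsto (fun a : ℝ => (a, D)) (𝓝 0) (𝓝 (0, D)) :=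
      (Continuous.prodMk_left D).tendsto 0
    filter_upwards [hb0.eventually hΛd] with a ha
    have h7 : HasDerivAt (fun r : ℝ => (a, r)) ((0 : ℝ), (1 : ℝ)) D :=
      (hasDerivAt_const D a).prodMk (hasDerivAt_id D)
    have h8 := (ha.hasFDerivAt.comp_hasDerivAt D h7).deriv
    have hs' : gam e x (rv0 u w₀ a) D ∈ (chartAt E (gam e x u D)).source := by
      rw [hbar]
      exact mem_chart_source E _
    have h1 := crd_dv (c := gam e x (rv0 u w₀ a)) (t := D)
      ((contMDiff_gam F.isExp x _).contMDiffAt.mdifferentiableAt (by simp)) (gam e x u D) hs'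
    have h9 : dv (E := E) (gam e x (rv0 u w₀ a)) D = vel e x (rv0 u w₀ a) D :=
      mfderiv_gam F.isExp x _ D
    refine h8.symm.trans (h1.symm.trans ?_)
    rw [h9, hbar, hvel]
    refine (map_add (crd (gam e x u D) (gam e x u D)) _ _).trans ?_
    exact congrArg₂ (· + ·) (map_smul (crd (gam e x u D) (gam e x u D)) _ _)
      (map_smul (crd (gam e x u D) (gam e x u D)) _ _)
  have g2 : HasDerivAt (fun a => Real.cos a) 0 0 := by
    have := Real.hasDerivAt_cos 0
    rwa [Real.sin_zero, neg_zero] at this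
  have g3 : HasDerivAt (fun a => Real.sin a) 1 0 := by
    have := Real.hasDerivAt_sin 0
    rwa [Real.cos_zero] at this
  have g4 := (g2.smul_const (crd (gam e x u D) (gam e x u D) (vel (E := E) e x u D) : E)).add
    (g3.smul_const (crd (gam e x u D) (gam e x u D) (vel (E := E) e x w₀ D) : E))
  rw [zero_smul, zero_add, one_smul] at g4
  have g5 := g4.congr_of_eventuallyEq h6
  rw [g5.unique h5]
  exact hj1

end

end Vale.Agent.P231.H997
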