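import Vale.Agent.P231.H997.SV3

/-!
# P231, block C: the energy density as a function of the 1-jet of the field
-/

set_option maxSynthPendingDepth 3
set_option linter.unusedSectionVars false
set_option linter.unusedVariables false

open Bundle Manifold Set Filter Module MeasureTheory
open scoped ContDiff Manifold Topology ENNReal

namespace Vale.Agent.P231.H997

noncomputable section

open Vale.Agent.P234 Vale.Agent.P231 Vale.Agent.P231.H775 Vale.Agent.P231.Fm Vale.Agent.P231.W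

section Calculus

variable {V : Type*} [NormedAddCommGroup V] [NormedSpace ℝ V]

/-- the derivative along a ray, near zero -/
theorem deriv_ray {G : V → ℝ} (hG : ContDiffAt ℝ 2 G 0) (q : V) :
    deriv (deriv (fun s : ℝ => G (s • q))) 0 = fderiv ℝ (fderiv ℝ G) 0 q q ∧
      deriv (fun s : ℝ => G (s • q)) 0 = fderiv ℝ G 0 q := by
  have h1 : ∀ᶠ x in 𝓝 (0 : V), ContDiffAt ℝ 2 G x := hG.eventually (by simp)
  have hc : Tendsto (fun s : ℝ => s • q) (𝓝 0) (𝓝 (0 : V)) := by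
    have : Continuous (fun s : ℝ => s • q) := continuous_id.smul continuous_const
    exact this.tendsto' _ _ (zero_smul ℝ q)
  have h2 : ∀ᶠ s : ℝ in 𝓝 0, deriv (fun s : ℝ => G (s • q)) s = fderiv ℝ G (s • q) q := by
    filter_upwards [hc.eventually h1] with s hs
    have h3 : HasDerivAt (fun s : ℝ => s • q) ((1 : ℝ) • q) s := (hasDerivAt_id s).smul_const q
    rw [one_smul] at h3
    exact ((hs.differentiableAt (by simp)).hasFDerivAt.comp_hasDerivAt s h3).deriv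
  have h4 : DifferentiableAt ℝ (fderiv ℝ G) (0 : V) :=
    (hG.fderiv_right (m := 1) (by norm_num)).differentiableAt (by simp)
  constructor
  · have h5 : deriv (fun s : ℝ => G (s • q)) =ᶠ[𝓝 0] fun s => fderiv ℝ G (s • q) q := h2
    rw [h5.deriv_eq]
    have h3 : HasDerivAt (fun s : ℝ => s • q) q 0 := by
      have := (hasDerivAt_id (0 : ℝ)).smul_const q
      rwa [one_smul] at this
    have h4' : HasFDerivAt (fderiv ℝ G) (fderiv ℝ (fderiv ℝ G) 0) ((0 : ℝ) • q) := by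
      rw [zero_smul]
      exact h4.hasFDerivAt
    have h6 := h4'.comp_hasDerivAt (0 : ℝ) h3
    have h7 := h6.clm_apply (hasDerivAt_const (0 : ℝ) q)
    simp only [map_zero, add_zero, Function.comp_def] at h7
    exact h7.deriv
  · have h8 := h2.self_of_nhds
    rw [zero_smul] at h8
    exact h8

/-- the mixed derivative -/
theorem deriv_mixed {G : V → ℝ} (hG : ContDiffAt ℝ 2 G 0) {l : ℝ → V} {l' : V}
    (hl : HasDerivAt l l' 0) (hl0 : l 0 = 0) (q : V) :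
    deriv (fun a : ℝ => deriv (fun s : ℝ => G (l a + s • q)) 0) 0 =
      fderiv ℝ (fderiv ℝ G) 0 l' q := by
  have h1 : ∀ᶠ x in 𝓝 (0 : V), ContDiffAt ℝ 2 G x := hG.eventually (by simp)
  have hc : Tendsto l (𝓝 0) (𝓝 (0 : V)) := by
    have := hl.continuousAt.tendsto
    rwa [hl0] at this
  have h2 : ∀ᶠ a : ℝ in 𝓝 0, deriv (fun s : ℝ => G (l a + s • q)) 0 = fderiv ℝ G (l a) q := by
    filter_upwards [hc.eventually h1] with a ha
    have h3 : HasDerivAt (fun s : ℝ => l a + s • q) q 0 := by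
      have := (hasDerivAt_id (0 : ℝ)).smul_const q
      rw [one_smul] at this
      exact this.const_add _
    have h5 : HasFDerivAt G (fderiv ℝ G (l a)) (l a + (0 : ℝ) • q) := by
      rw [zero_smul, add_zero]
      exact (ha.differentiableAt (by simp)).hasFDerivAt
    exact (h5.comp_hasDerivAt (0 : ℝ) h3).deriv
  have h4 : DifferentiableAt ℝ (fderiv ℝ G) (0 : V) :=
    (hG.fderiv_right (m := 1) (by norm_num)).differentiableAt (by simp)
  have h5 : (fun a : ℝ => deriv (fun s : ℝ => G (l a + s • q)) 0) =ᶠ[𝓝 0]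
      fun a => fderiv ℝ G (l a) q := h2
  rw [h5.deriv_eq]
  have h4' : HasFDerivAt (fderiv ℝ G) (fderiv ℝ (fderiv ℝ G) 0) (l 0) := by
    rw [hl0]
    exact h4.hasFDerivAt
  have h6 := h4'.comp_hasDerivAt (0 : ℝ) hl
  have h7 := h6.clm_apply (hasDerivAt_const (0 : ℝ) q)
  simp only [map_zero, add_zero, Function.comp_def] at h7
  exact h7.deriv

end Calculus

variable {E : Type*} [NormedAddCommGroup E] [NormedSpace ℝ E]
  {M : Type*} [MetricSpace M] [ChartedSpace E M]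

/-- chain rule for velocities -/
theorem dv_chain {V : Type*} [NormedAddCommGroup V] [NormedSpace ℝ V] {Φ : V → M} {c : ℝ → V}
    {c' : V} {t : ℝ} (hΦ : MDifferentiableAt 𝓘(ℝ, V) 𝓘(ℝ, E) Φ (c t)) (hc : HasDerivAt c c' t) :
    dv (E := E) (fun s => Φ (c s)) t = mfderiv 𝓘(ℝ, V) 𝓘(ℝ, E) Φ (c t) c' := by
  have h1 : MDifferentiableAt 𝓘(ℝ, ℝ) 𝓘(ℝ, V) c t := hc.differentiableAt.mdifferentiableAt
  have h2 := mfderiv_comp_apply t (I' := 𝓘(ℝ, V)) (I'' := 𝓘(ℝ, E)) (g := Φ) (f := c) hΦ h1 (1 : ℝ)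
  have h3 : mfderiv 𝓘(ℝ, ℝ) 𝓘(ℝ, V) c t (1 : ℝ) = c' := by
    rw [mfderiv_eq_fderiv]
    exact hc.deriv
  rw [h3] at h2
  exact h2

/-- velocities of curves in the parameter space with the same derivative -/
theorem dv_eq_of_deriv {V : Type*} [NormedAddCommGroup V] [NormedSpace ℝ V] {Φ : V → M}
    {c₁ c₂ : ℝ → V} {c' : V} {t : ℝ} (hΦ : MDifferentiableAt 𝓘(ℝ, V) 𝓘(ℝ, E) Φ (c₁ t))
    (h1 : HasDerivAt c₁ c' t) (h2 : HasDerivAt c₂ c' t) (h0 : c₁ t = c₂ t) :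
    dv (E := E) (fun s => Φ (c₁ s)) t = dv (fun s => Φ (c₂ s)) t := by
  rw [dv_chain hΦ h1]
  have h3 : MDifferentiableAt 𝓘(ℝ, V) 𝓘(ℝ, E) Φ (c₂ t) := h0 ▸ hΦ
  rw [dv_chain h3 h2]
  have key : ∀ p q : V, p = q → (mfderiv 𝓘(ℝ, V) 𝓘(ℝ, E) Φ p c' : E) =
      mfderiv 𝓘(ℝ, V) 𝓘(ℝ, E) Φ q c' := by
    rintro p q rfl
    rfl
  exact key _ _ h0

variable [FiniteDimensional ℝ E] [IsManifold 𝓘(ℝ, E) ∞ M]
  [RiemannianBundle (fun x : M => TangentSpace 𝓘(ℝ, E) x)]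
  [IsContMDiffRiemannianBundle 𝓘(ℝ, E) ∞ E (fun x : M => TangentSpace 𝓘(ℝ, E) x)]
  {e : ∀ x : M, TangentSpace 𝓘(ℝ, E) x → M}

theorem en_congr {c c' : ℝ → M} {t : ℝ} (h : c =ᶠ[𝓝 t] c') : en (E := E) c t = en (E := E) c' t := by
  unfold en
  rw [dv_congr h, h.self_of_nhds]

/-- the coordinates of a field along a curve -/
def crc (x₀ : M) (γ : ℝ → M) (X : ℝ → E) (t : ℝ) : E := crd x₀ (γ t) (X t)

/-- **The energy density of `exp X` is a smooth function of the 1-jet of `X`.** -/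
theorem exists_jetfun (he : IsExp e) {γ : ℝ → M} (hγ : ContMDiff 𝓘(ℝ, ℝ) 𝓘(ℝ, E) ∞ γ) (t₀ : ℝ) :
    ∃ G : E × E → ℝ, ContDiffAt ℝ ∞ G 0 ∧ ∀ (X : ℝ → E) (ζ' : E),
      HasDerivAt (crc (γ t₀) γ X) ζ' t₀ →
      en (E := E) (fun t => e (γ t) (X t)) t₀ = G (crc (γ t₀) γ X t₀, ζ') := by
  have hsrc : ∀ᶠ t in 𝓝 t₀, γ t ∈ (extChartAt 𝓘(ℝ, E) (γ t₀)).source :=
    hγ.continuous.continuousAt.eventually ((isOpen_extChartAt_source _).mem_nhds
      (mem_extChartAt_source _))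
  let Ψ : E × ℝ → M := fun p => e (γ p.2) (vec (γ t₀) (γ p.2) p.1)
  have hΨ : ∀ z : E, ContMDiffAt 𝓘(ℝ, E × ℝ) 𝓘(ℝ, E) ∞ Ψ (z, t₀) := by
    intro z
    have h1 : ContMDiffAt 𝓘(ℝ, E × ℝ) 𝓘(ℝ, E) ∞ (fun p : E × ℝ => γ p.2) (z, t₀) :=
      ContMDiffAt.comp (z, t₀) hγ.contMDiffAt contDiffAt_snd.contMDiffAt
    exact (smV_vec (f := fun p : E × ℝ => γ p.2) (s := (z, t₀)) (γ t₀) hsrc.self_of_nhds h1
      contDiffAt_fst).exp he
  refine ⟨fun q => en (E := E) (fun s => Ψ (q.1 + (s - t₀) • q.2, s)) t₀, ?_, ?_⟩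
  · have h1 : ContDiff ℝ ∞ (fun p : (E × E) × ℝ => (p.1.1 + (p.2 - t₀) • p.1.2, p.2)) := by
      fun_prop
    have h2 : ContMDiffAt 𝓘(ℝ, (E × E) × ℝ) 𝓘(ℝ, E) ∞
        (fun p : (E × E) × ℝ => Ψ (p.1.1 + (p.2 - t₀) • p.1.2, p.2)) (0, t₀) := by
      have h3 : ContMDiffAt 𝓘(ℝ, E × ℝ) 𝓘(ℝ, E) ∞ Ψ
          ((fun p : (E × E) × ℝ => (p.1.1 + (p.2 - t₀) • p.1.2, p.2)) (0, t₀)) := by
        have h4 : (fun p : (E × E) × ℝ => (p.1.1 + (p.2 - t₀) • p.1.2, p.2)) (0, t₀) =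
            ((0 : E), t₀) := by
          simp only [sub_self, zero_smul, add_zero, Prod.fst_zero]
        rw [h4]
        exact hΨ 0
      exact h3.comp ((0 : E × E), t₀) h1.contMDiff.contMDiffAt
    exact (SmV_dv (H := fun (q : E × E) s => Ψ (q.1 + (s - t₀) • q.2, s)) (τ := fun _ => t₀)
      (s := 0) h2 contDiffAt_const).norm_sq.div_const 2
  · intro X ζ' hX
    have h1 : (fun t => e (γ t) (X t)) =ᶠ[𝓝 t₀] fun t => Ψ (crc (γ t₀) γ X t, t) := by
      filter_upwards [hsrc] with t ht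
      have h2 := vec_crd (γ t₀) ht (X t)
      change e (γ t) (X t) = e (γ t) (vec (γ t₀) (γ t) (crd (γ t₀) (γ t) (X t)))
      rw [h2]
    rw [en_congr h1]
    have h3 : HasDerivAt (fun t => (crc (γ t₀) γ X t, t)) (ζ', (1 : ℝ)) t₀ :=
      hX.prodMk (hasDerivAt_id t₀)
    have h4 : HasDerivAt (fun s => (crc (γ t₀) γ X t₀ + (s - t₀) • ζ', s)) (ζ', (1 : ℝ)) t₀ := by
      have h5 : HasDerivAt (fun s : ℝ => (s - t₀) • ζ') ((1 : ℝ) • ζ') t₀ :=
        ((hasDerivAt_id t₀).sub_const t₀).smul_const ζ'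
      rw [one_smul] at h5
      exact (h5.const_add _).prodMk (hasDerivAt_id t₀)
    have h0 : (crc (γ t₀) γ X t₀, t₀) = (crc (γ t₀) γ X t₀ + (t₀ - t₀) • ζ', t₀) := by
      rw [sub_self, zero_smul, add_zero]
    have h5 := dv_eq_of_deriv (E := E) (Φ := Ψ) (c₁ := fun t => (crc (γ t₀) γ X t, t))
      ((hΨ _).mdifferentiableAt (by simp)) h3 h4 h0
    unfold en
    rw [h5]
    simp only
    rw [← h0]

end

end Vale.Agent.P231.H997
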