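import Vale.Agent.P231.H997.SV4
import Vale.Agent.P231.H703.Link

/-!
# P231, block C: the second variation of the energy against a broken Jacobi field

`lune_formula`: the integral over `[0, D]` of the polarised second variation density of the pair
(Jacobi field vanishing at both ends, arbitrary field) is a boundary term.  Only the first
variation formula for the rotated geodesics is used.
-/

set_option maxSynthPendingDepth 3
set_option linter.unusedSectionVars false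
set_option linter.unusedVariables false

open Bundle Manifold Set Filter Module MeasureTheory
open scoped ContDiff Manifold Topology ENNReal

namespace Vale.Agent.P231.H997

noncomputable section

open Vale.Agent.P234 Vale.Agent.P231 Vale.Agent.P231.H775 Vale.Agent.P231.Fm Vale.Agent.P231.W
open Vale.Agent.P231.WD3

variable {E : Type*} [NormedAddCommGroup E] [NormedSpace ℝ E] [FiniteDimensional ℝ E]
  {M : Type*} [MetricSpace M] [ChartedSpace E M] [IsManifold 𝓘(ℝ, E) ∞ M]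
  [RiemannianBundle (fun x : M => TangentSpace 𝓘(ℝ, E) x)]
  [IsContMDiffRiemannianBundle 𝓘(ℝ, E) ∞ E (fun x : M => TangentSpace 𝓘(ℝ, E) x)]
  {e : ∀ x : M, TangentSpace 𝓘(ℝ, E) x → M}

/-- the energy density of a smooth family of curves is smooth -/
theorem contDiff_en' {V : Type*} [NormedAddCommGroup V] [NormedSpace ℝ V] {H : V × ℝ → M}
    (hH : ContMDiff 𝓘(ℝ, V × ℝ) 𝓘(ℝ, E) ∞ H) :
    ContDiff ℝ ∞ (fun p : V × ℝ => en (E := E) (fun t => H (p.1, t)) p.2) := by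
  rw [contDiff_iff_contDiffAt]
  intro p
  have h0 : ContDiff ℝ ∞ (fun q : (V × ℝ) × ℝ => (q.1.1, q.2)) := by fun_prop
  have h1 : ContMDiffAt 𝓘(ℝ, (V × ℝ) × ℝ) 𝓘(ℝ, E) ∞ (fun q : (V × ℝ) × ℝ => H (q.1.1, q.2))
      (p, p.2) :=
    ContMDiffAt.comp (p, p.2) hH.contMDiffAt h0.contMDiff.contMDiffAt
  exact (SmV_dv (H := fun (q : V × ℝ) t => H (q.1, t)) (τ := fun y : V × ℝ => y.2) (s := p) h1
    contDiffAt_snd).norm_sq.div_const 2

/-- the rotated vector -/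
def rv0 (u w₀ : E) (b : ℝ) : E := Real.cos b • u + Real.sin b • w₀

theorem rv0_zero (u w₀ : E) : rv0 u w₀ 0 = u := by
  unfold rv0
  rw [Real.cos_zero, Real.sin_zero, one_smul, zero_smul, add_zero]

/-- the rotated geodesics -/
theorem contMDiff_rot (he : IsExp e) (x : M) (u w₀ : E) :
    ContMDiff 𝓘(ℝ, ℝ × ℝ) 𝓘(ℝ, E) ∞ (fun p : ℝ × ℝ => gam e x (rv0 u w₀ p.1) p.2) := by
  let u' : TangentSpace 𝓘(ℝ, E) x := u
  let w' : TangentSpace 𝓘(ℝ, E) x := w₀
  have h1 : ContDiff ℝ ∞ (fun p : ℝ × ℝ => p.2 • (Real.cos p.1 • u' + Real.sin p.1 • w')) := by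
    refine contDiff_snd.smul (ContDiff.add ?_ ?_)
    · exact (Real.contDiff_cos.comp contDiff_fst).smul contDiff_const
    · exact (Real.contDiff_sin.comp contDiff_fst).smul contDiff_const
  exact (contMDiff_exp_fiber he x).comp h1.contMDiff

/-- data of the lune -/
structure Lune (e : ∀ x : M, TangentSpace 𝓘(ℝ, E) x → M) (D δ : ℝ) (x : M) (u w₀ : E)
    (Z : ℝ → E) : Prop where
  hD : 0 < D
  hδ : 0 < δ
  unit : ∀ b, nm x (rv0 u w₀ b) = 1
  dist_lt : ∀ b, |b| ≤ δ → ∀ t, dist (gam e x u t) (gam e x (rv0 u w₀ b) t) < D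
  smooth : ∀ t, SmV (gam e x u) (fun t => (Z t : E)) t
  bar : ∀ b, gam e x (rv0 u w₀ b) D = gam e x u D
  vel : ∀ b, vel e x (rv0 u w₀ b) D = Real.cos b • vel e x u D + Real.sin b • vel e x w₀ D

section

variable {D δ : ℝ} {x : M} {u w₀ : E} {Z : ℝ → E}

/-- the logarithm of the rotated geodesic -/
def Lo (e : ∀ x : M, TangentSpace 𝓘(ℝ, E) x → M) (δ : ℝ) (x : M) (u w₀ : E) (a t : ℝ) : E :=
  lm e (gam e x u t) (gam e x (rv0 u w₀ (δ * Real.sin a)) t)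

/-- the two parameter variation -/
def Kv (e : ∀ x : M, TangentSpace 𝓘(ℝ, E) x → M) (δ : ℝ) (x : M) (u w₀ : E) (Z : ℝ → E)
    (a s t : ℝ) : M :=
  e (gam e x u t) (Lo e δ x u w₀ a t + s • Z t : E)

theorem Lune.abs_le (hL : Lune e D δ x u w₀ Z) (a : ℝ) : |δ * Real.sin a| ≤ δ := by
  rw [abs_mul, abs_of_pos hL.hδ]
  exact mul_le_of_le_one_right hL.hδ.le (Real.abs_sin_le_one a)

theorem Lune.smV_Lo (F : Facts e) (hB : InjGE e D) (hL : Lune e D δ x u w₀ Z) (p : ℝ × ℝ) :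
    SmV (fun p : ℝ × ℝ => gam e x u p.2) (fun p : ℝ × ℝ => (Lo e δ x u w₀ p.1 p.2 : E)) p := by
  have h1 : ContMDiffAt 𝓘(ℝ, ℝ × ℝ) 𝓘(ℝ, E) ∞ (fun p : ℝ × ℝ => gam e x u p.2) p := by
    have h0 : ContDiff ℝ ∞ (fun p : ℝ × ℝ => p.2) := contDiff_snd
    exact ((contMDiff_gam F.isExp x u).comp h0.contMDiff).contMDiffAt
  have h2 : ContMDiff 𝓘(ℝ, ℝ × ℝ) 𝓘(ℝ, E) ∞
      (fun p : ℝ × ℝ => gam e x (rv0 u w₀ (δ * Real.sin p.1)) p.2) := by
    have h3 : ContDiff ℝ ∞ (fun p : ℝ × ℝ => (δ * Real.sin p.1, p.2)) :=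
      (contDiff_const.mul (Real.contDiff_sin.comp contDiff_fst)).prodMk contDiff_snd
    exact (contMDiff_rot F.isExp x u w₀).comp h3.contMDiff
  exact smV_lm F hB h1 h2.contMDiffAt (hL.dist_lt _ (hL.abs_le _) _)

theorem Lune.contMDiff_Kv (F : Facts e) (hB : InjGE e D) (hL : Lune e D δ x u w₀ Z) :
    ContMDiff 𝓘(ℝ, (ℝ × ℝ) × ℝ) 𝓘(ℝ, E) ∞
      (fun p : (ℝ × ℝ) × ℝ => Kv e δ x u w₀ Z p.1.1 p.1.2 p.2) := by
  intro p
  have h1 : SmV (fun p : (ℝ × ℝ) × ℝ => gam e x u p.2)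
      (fun p : (ℝ × ℝ) × ℝ => (Lo e δ x u w₀ p.1.1 p.2 : E)) p :=
    SmV.comp (h := fun p : (ℝ × ℝ) × ℝ => (p.1.1, p.2)) (hL.smV_Lo F hB (p.1.1, p.2))
      (by fun_prop)
  have h2 : SmV (fun p : (ℝ × ℝ) × ℝ => gam e x u p.2)
      (fun p : (ℝ × ℝ) × ℝ => (Z p.2 : E)) p :=
    SmV.comp (h := fun p : (ℝ × ℝ) × ℝ => p.2) (hL.smooth p.2) contDiffAt_snd
  have h3 : ContDiffAt ℝ ∞ (fun p : (ℝ × ℝ) × ℝ => p.1.2) p := by fun_prop
  exact (h1.add (SmV.smul h3 h2)).exp F.isExp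

/-- the first derivative of the energy density in the second parameter -/
def k2 (e : ∀ x : M, TangentSpace 𝓘(ℝ, E) x → M) (δ : ℝ) (x : M) (u w₀ : E) (Z : ℝ → E)
    (p : ℝ × ℝ) : ℝ :=
  deriv (fun s => en (E := E) (fun t => Kv e δ x u w₀ Z p.1 s t) p.2) 0

theorem Lune.contDiff_k2 (F : Facts e) (hB : InjGE e D) (hL : Lune e D δ x u w₀ Z) :
    ContDiff ℝ ∞ (k2 e δ x u w₀ Z) := by
  have h1 := contDiff_en' (E := E) (V := ℝ × ℝ) (hL.contMDiff_Kv F hB)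
  have h2 : ContDiff ℝ ∞ (fun p : ℝ × ℝ => fderiv ℝ (fun q : (ℝ × ℝ) × ℝ =>
      en (E := E) (fun t => Kv e δ x u w₀ Z q.1.1 q.1.2 t) q.2) ((p.1, 0), p.2) ((0, 1), 0)) := by
    have h3 : ContDiff ℝ ∞ (fderiv ℝ (fun q : (ℝ × ℝ) × ℝ =>
      en (E := E) (fun t => Kv e δ x u w₀ Z q.1.1 q.1.2 t) q.2)) :=
      h1.fderiv_right (m := ∞) (by simp)
    have h4 : ContDiff ℝ ∞ (fun p : ℝ × ℝ => ((p.1, (0 : ℝ)), p.2)) := by fun_prop
    exact (h3.comp h4).clm_apply contDiff_const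
  have hk : ∀ p, k2 e δ x u w₀ Z p = fderiv ℝ (fun q : (ℝ × ℝ) × ℝ =>
      en (E := E) (fun t => Kv e δ x u w₀ Z q.1.1 q.1.2 t) q.2) ((p.1, 0), p.2) ((0, 1), 0) := by
    intro p
    have h5 : HasDerivAt (fun s : ℝ => ((p.1, s), p.2)) (((0 : ℝ), (1 : ℝ)), (0 : ℝ)) 0 :=
      ((hasDerivAt_const (0 : ℝ) p.1).prodMk (hasDerivAt_id (0 : ℝ))).prodMk
        (hasDerivAt_const (0 : ℝ) p.2)
    exact ((h1.differentiable (by simp) _).hasFDerivAt.comp_hasDerivAt (0 : ℝ) h5).deriv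
  rw [show k2 e δ x u w₀ Z = _ from funext hk]
  exact h2

theorem Lune.Kv_zero (F : Facts e) (hB : InjGE e D) (hL : Lune e D δ x u w₀ Z) (a t : ℝ) :
    Kv e δ x u w₀ Z a 0 t = gam e x (rv0 u w₀ (δ * Real.sin a)) t := by
  unfold Kv
  rw [zero_smul, add_zero]
  exact exp_lm F hB (hL.dist_lt _ (hL.abs_le a) t)

theorem Lune.Lo_end (F : Facts e) (hB : InjGE e D) (hL : Lune e D δ x u w₀ Z) (a : ℝ) {t : ℝ}
    (ht : gam e x (rv0 u w₀ (δ * Real.sin a)) t = gam e x u t) : Lo e δ x u w₀ a t = 0 := by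
  unfold Lo
  rw [ht]
  exact lm_self F hL.hD hB _

theorem Lune.dv_end (F : Facts e) (hB : InjGE e D) (hL : Lune e D δ x u w₀ Z) (a : ℝ) {t : ℝ}
    (ht : gam e x (rv0 u w₀ (δ * Real.sin a)) t = gam e x u t) :
    dv (E := E) (fun s => Kv e δ x u w₀ Z a s t) 0 = Z t := by
  have h1 : (fun s => Kv e δ x u w₀ Z a s t) = gam e (gam e x u t) (Z t) := by
    funext s
    unfold Kv
    rw [hL.Lo_end F hB a ht, zero_add]
    rfl
  rw [h1]
  exact (mfderiv_gam F.isExp _ _ 0).trans (vel_zero F.isExp _ _)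

variable [IsRiemannianManifold 𝓘(ℝ, E) M]

/-- the first variation at the rotated geodesic -/
theorem Lune.int_k2 (F : Facts e) (hB : InjGE e D) (hL : Lune e D δ x u w₀ Z) (a : ℝ) :
    ∫ t in (0 : ℝ)..D, k2 e δ x u w₀ Z (a, t) =
      Real.cos (δ * Real.sin a) * (ip (gam e x u D) (P231.vel e x u D) (Z D) - ip x u (Z 0)) +
      Real.sin (δ * Real.sin a) *
        (ip (gam e x u D) (P231.vel e x w₀ D) (Z D) - ip x w₀ (Z 0)) := by
  have hD := hL.hD
  have hH : ContMDiff 𝓘(ℝ, ℝ × ℝ) 𝓘(ℝ, E) ∞ (fun p : ℝ × ℝ => Kv e δ x u w₀ Z a p.1 p.2) := by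
    have h1 : ContDiff ℝ ∞ (fun p : ℝ × ℝ => ((a, p.1), p.2)) := by fun_prop
    exact (hL.contMDiff_Kv F hB).comp h1.contMDiff
  have h0 : ∀ t, (fun p : ℝ × ℝ => Kv e δ x u w₀ Z a p.1 p.2) (0, t) =
      gam e x (rv0 u w₀ (δ * Real.sin a)) t := fun t => hL.Kv_zero F hB a t
  have hc : Continuous fun t => k2 e δ x u w₀ Z (a, t) :=
    (hL.contDiff_k2 F hB).continuous.comp (Continuous.prodMk_right a)
  have h1 := first_var F hB (hL.unit (δ * Real.sin a)) (a := 0) (b := D / 2) (by linarith)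
    (by linarith) hH h0
  have h2 := first_var F hB (hL.unit (δ * Real.sin a)) (a := D / 2) (b := D) (by linarith)
    (by linarith) hH h0
  have h3 := intervalIntegral.integral_add_adjacent_intervals
    (hc.intervalIntegrable (μ := volume) 0 (D / 2)) (hc.intervalIntegrable (μ := volume) (D / 2) D)
  have h4 : ∫ t in (0 : ℝ)..D, k2 e δ x u w₀ Z (a, t) =
      ip (gam e x (rv0 u w₀ (δ * Real.sin a)) D) (P231.vel e x (rv0 u w₀ (δ * Real.sin a)) D)
        (dv (E := E) (fun s => Kv e δ x u w₀ Z a s D) 0) -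
      ip (gam e x (rv0 u w₀ (δ * Real.sin a)) 0) (P231.vel e x (rv0 u w₀ (δ * Real.sin a)) 0)
        (dv (E := E) (fun s => Kv e δ x u w₀ Z a s 0) 0) := by
    rw [← h3]
    refine (congrArg₂ (· + ·) h1 h2).trans ?_
    simp only
    ring
  have h00 : gam e x (rv0 u w₀ (δ * Real.sin a)) 0 = gam e x u 0 := by
    rw [gam_zero F.isExp, gam_zero F.isExp]
  rw [h4, hL.dv_end F hB a (hL.bar _), hL.dv_end F hB a h00, hL.bar, hL.vel, gam_zero F.isExp,
    vel_zero F.isExp]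
  have e1 : ∀ (y : M) (p q r : E) (α β : ℝ), ip y (α • p + β • q) r =
      α * ip y p r + β * ip y q r := by
    intro y p q r α β
    have h5 : ip y (α • p + β • q) r = ip y (α • p) r + ip y (β • q) r :=
      inner_add_left (𝕜 := ℝ) (E := TangentSpace 𝓘(ℝ, E) y) _ _ _
    rw [h5, ip_smul_left', ip_smul_left']
  unfold rv0
  rw [e1, e1]
  ring

theorem Lune.int_deriv_k2 (F : Facts e) (hB : InjGE e D) (hL : Lune e D δ x u w₀ Z) :
    ∫ t in (0 : ℝ)..D, deriv (fun a => k2 e δ x u w₀ Z (a, t)) 0 =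
      δ * (ip (gam e x u D) (P231.vel e x w₀ D) (Z D) - ip x w₀ (Z 0)) := by
  have h1 := hasDerivAt_int (g := k2 e δ x u w₀ Z) isOpen_univ
    (((hL.contDiff_k2 F hB).of_le (by simp)).contDiffOn) 0 D (mem_univ (0 : ℝ))
  have h2 : HasDerivAt (fun a => δ * Real.sin a) δ 0 := by
    have := (Real.hasDerivAt_sin 0).const_mul δ
    rwa [Real.cos_zero, mul_one] at this
  have h3 : HasDerivAt (fun a => Real.cos (δ * Real.sin a)) 0 0 := by
    have h4 := (Real.hasDerivAt_cos (δ * Real.sin 0)).comp (0 : ℝ) h2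
    rw [Real.sin_zero, mul_zero, Real.sin_zero, neg_zero, zero_mul] at h4
    exact h4
  have h5 : HasDerivAt (fun a => Real.sin (δ * Real.sin a)) δ 0 := by
    have h4 := (Real.hasDerivAt_sin (δ * Real.sin 0)).comp (0 : ℝ) h2
    rw [Real.sin_zero, mul_zero, Real.cos_zero, one_mul] at h4
    exact h4
  have h6 := (h3.mul_const (ip (gam e x u D) (P231.vel e x u D) (Z D) - ip x u (Z 0))).add
    (h5.mul_const (ip (gam e x u D) (P231.vel e x w₀ D) (Z D) - ip x w₀ (Z 0)))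
  rw [zero_mul, zero_add] at h6
  refine h1.unique (h6.congr_of_eventuallyEq (Eventually.of_forall fun a => ?_))
  exact hL.int_k2 F hB a

end

end

end Vale.Agent.P231.H997
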