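import Vale.Agent.P231.H997.SV5

/-!
# P231, block C: the mixed second derivative (continuation of `SV5`)
-/

set_option maxSynthPendingDepth 3
set_option linter.unusedSectionVars false
set_option linter.unusedVariables false

open Bundle Manifold Set Filter Module MeasureTheory
open scoped ContDiff Manifold Topology

namespace Vale.Agent.P231.H997

noncomputable section

open Vale.Agent.P234 Vale.Agent.P231 Vale.Agent.P231.H775 Vale.Agent.P231.Fm Vale.Agent.P231.W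
open Vale.Agent.P231.WD3

variable {E : Type*} [NormedAddCommGroup E] [NormedSpace ℝ E] [FiniteDimensional ℝ E]
  {M : Type*} [MetricSpace M] [ChartedSpace E M] [IsManifold 𝓘(ℝ, E) ∞ M]
  [RiemannianBundle (fun x : M => TangentSpace 𝓘(ℝ, E) x)]
  [IsContMDiffRiemannianBundle 𝓘(ℝ, E) ∞ E (fun x : M => TangentSpace 𝓘(ℝ, E) x)]
  {e : ∀ x : M, TangentSpace 𝓘(ℝ, E) x → M}

/-- mixed partial derivatives of a function of two variables -/
theorem jet_deriv {V : Type*} [NormedAddCommGroup V] [NormedSpace ℝ V] {Λ : ℝ × ℝ → V} {t δ : ℝ}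
    (hδ : δ ≠ 0) (hΛ : ContDiffAt ℝ ∞ Λ (0, t)) {j : ℝ → V}
    (hj : ∀ᶠ s in 𝓝 t, HasDerivAt (fun a => Λ (a, s)) (δ • j s) 0) :
    ∃ j' : V, HasDerivAt j j' t ∧
      HasDerivAt (fun a => (Λ (a, t), fderiv ℝ Λ (a, t) (0, 1))) (δ • (j t, j')) 0 := by
  have hΛd : ∀ᶠ p in 𝓝 ((0 : ℝ), t), DifferentiableAt ℝ Λ p := by
    filter_upwards [(hΛ.of_le (by simp : (1 : WithTop ℕ∞) ≤ ∞)).eventually (by simp)] with p hp
    exact hp.differentiableAt (by simp)
  have hb0 : Tendsto (fun s : ℝ => ((0 : ℝ), s)) (𝓝 t) (𝓝 (0, t)) :=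
    (Continuous.prodMk_right (0 : ℝ)).tendsto t
  have hfd : DifferentiableAt ℝ (fderiv ℝ Λ) (0, t) :=
    (hΛ.fderiv_right (m := ∞) (by simp)).differentiableAt (by simp)
  have ha : HasDerivAt (fun a : ℝ => (a, t)) ((1 : ℝ), (0 : ℝ)) 0 :=
    (hasDerivAt_id (0 : ℝ)).prodMk (hasDerivAt_const (0 : ℝ) t)
  have hb : HasDerivAt (fun s : ℝ => ((0 : ℝ), s)) ((0 : ℝ), (1 : ℝ)) t :=
    (hasDerivAt_const t (0 : ℝ)).prodMk (hasDerivAt_id t)
  have h2 : HasDerivAt (fun a : ℝ => fderiv ℝ Λ (a, t) (0, 1))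
      (fderiv ℝ (fderiv ℝ Λ) (0, t) (1, 0) (0, 1)) 0 := by
    have h3 := hfd.hasFDerivAt.comp_hasDerivAt (0 : ℝ) ha
    have h30 := (ContinuousLinearMap.apply ℝ V ((0 : ℝ), (1 : ℝ))).hasFDerivAt.comp_hasDerivAt
      (0 : ℝ) h3
    exact h30
  have h4 : HasDerivAt (fun s : ℝ => fderiv ℝ Λ (0, s) (1, 0))
      (fderiv ℝ (fderiv ℝ Λ) (0, t) (0, 1) (1, 0)) t := by
    have h3 := hfd.hasFDerivAt.comp_hasDerivAt t hb
    have h30 := (ContinuousLinearMap.apply ℝ V ((1 : ℝ), (0 : ℝ))).hasFDerivAt.comp_hasDerivAt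
      t h3
    exact h30
  have h5 : (fun s : ℝ => fderiv ℝ Λ (0, s) (1, 0)) =ᶠ[𝓝 t] fun s => δ • j s := by
    filter_upwards [hj, hb0.eventually hΛd] with s h6 h9
    have h7 : HasDerivAt (fun a : ℝ => (a, s)) ((1 : ℝ), (0 : ℝ)) 0 :=
      (hasDerivAt_id (0 : ℝ)).prodMk (hasDerivAt_const (0 : ℝ) s)
    exact (h9.hasFDerivAt.comp_hasDerivAt (0 : ℝ) h7).unique h6
  have hsymm : fderiv ℝ (fderiv ℝ Λ) (0, t) (1, 0) (0, 1) =
      fderiv ℝ (fderiv ℝ Λ) (0, t) (0, 1) (1, 0) :=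
    (hΛ.isSymmSndFDerivAt (by
      rw [minSmoothness_of_isRCLikeNormedField]
      exact Fm.two_le_infty)).eq _ _
  refine ⟨δ⁻¹ • fderiv ℝ (fderiv ℝ Λ) (0, t) (0, 1) (1, 0), ?_, ?_⟩
  · have h7 := (h4.congr_of_eventuallyEq h5.symm).const_smul δ⁻¹
    refine h7.congr_of_eventuallyEq (Eventually.of_forall fun s => ?_)
    simp only [Pi.smul_apply, smul_smul, inv_mul_cancel₀ hδ, one_smul]
  · rw [Prod.smul_mk, smul_smul, mul_inv_cancel₀ hδ, one_smul, ← hsymm]
    exact hj.self_of_nhds.prodMk h2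

/-- the polarised second variation density of two fields along a geodesic -/
def bet (e : ∀ x : M, TangentSpace 𝓘(ℝ, E) x → M) (x : M) (u : E) (X Z : ℝ → E) (t : ℝ) : ℝ :=
  deriv (fun a : ℝ => deriv (fun s : ℝ =>
    en (E := E) (fun r => e (gam e x u r) (a • X r + s • Z r : E)) t) 0) 0

theorem crc_add (x₀ : M) (γ : ℝ → M) (X Z : ℝ → E) (a s t : ℝ) :
    crc x₀ γ (fun r => a • X r + s • Z r) t = a • crc x₀ γ X t + s • crc x₀ γ Z t := by
  unfold crc
  refine (map_add (crd x₀ (γ t)) _ _).trans ?_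
  exact congrArg₂ (· + ·) (map_smul (crd x₀ (γ t)) a _) (map_smul (crd x₀ (γ t)) s _)

theorem crc_add' (x₀ : M) (γ : ℝ → M) (X Z : ℝ → E) (s t : ℝ) :
    crc x₀ γ (fun r => X r + s • Z r) t = crc x₀ γ X t + s • crc x₀ γ Z t := by
  have := crc_add x₀ γ X Z 1 s t
  simpa only [one_smul] using this

/-- `bet` is the second derivative of the jet function -/
theorem bet_eq {x : M} {u : E} {G : E × E → ℝ} {t : ℝ} (hG : ContDiffAt ℝ ∞ G 0)
    (hjet : ∀ (X : ℝ → E) (ζ' : E), HasDerivAt (crc (gam e x u t) (gam e x u) X) ζ' t →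
      en (E := E) (fun t => e (gam e x u t) (X t)) t = G (crc (gam e x u t) (gam e x u) X t, ζ'))
    {X Z : ℝ → E} {X' Z' : E} (hX : HasDerivAt (crc (gam e x u t) (gam e x u) X) X' t)
    (hZ : HasDerivAt (crc (gam e x u t) (gam e x u) Z) Z' t) :
    bet e x u X Z t = fderiv ℝ (fderiv ℝ G) 0 (crc (gam e x u t) (gam e x u) X t, X')
      (crc (gam e x u t) (gam e x u) Z t, Z') := by
  have h1 : ∀ a s : ℝ, en (E := E) (fun r => e (gam e x u r) (a • X r + s • Z r : E)) t =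
      G (a • (crc (gam e x u t) (gam e x u) X t, X') +
        s • (crc (gam e x u t) (gam e x u) Z t, Z')) := by
    intro a s
    have h2 : HasDerivAt (crc (gam e x u t) (gam e x u) (fun r => a • X r + s • Z r))
        (a • X' + s • Z') t := by
      have h3 := (hX.const_smul a).add (hZ.const_smul s)
      refine h3.congr_of_eventuallyEq (Eventually.of_forall fun r => ?_)
      exact crc_add _ _ _ _ _ _ _
    rw [hjet _ _ h2, crc_add]
    rfl
  unfold bet
  simp only [h1]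
  have h4 : HasDerivAt (fun a : ℝ => a • (crc (gam e x u t) (gam e x u) X t, X'))
      (crc (gam e x u t) (gam e x u) X t, X') 0 := by
    have := (hasDerivAt_id (0 : ℝ)).smul_const (crc (gam e x u t) (gam e x u) X t, X')
    rwa [one_smul] at this
  exact deriv_mixed (hG.of_le Fm.two_le_infty) h4 (zero_smul ℝ _) _

section

variable {D δ : ℝ} {x : M} {u w₀ : E} {Z : ℝ → E}

/-- the coordinates of the logarithm -/
def Lam' (e : ∀ x : M, TangentSpace 𝓘(ℝ, E) x → M) (δ : ℝ) (x : M) (u w₀ : E) (x₀ : M)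
    (p : ℝ × ℝ) : E := crc x₀ (gam e x u) (Lo e δ x u w₀ p.1) p.2

theorem Lune.smooth_Lam (F : Facts e) (hB : InjGE e D) (hL : Lune e D δ x u w₀ Z) (x₀ : M)
    {p : ℝ × ℝ} (hp : gam e x u p.2 ∈ (extChartAt 𝓘(ℝ, E) x₀).source) :
    ContDiffAt ℝ ∞ (Lam' e δ x u w₀ x₀) p :=
  ((smV_iff (f := fun p : ℝ × ℝ => gam e x u p.2) x₀ hp).1 (hL.smV_Lo F hB p)).2

/-- the derivative of the logarithm of the rotated geodesic is the Jacobi field -/
theorem Lune.deriv_Lam (F : Facts e) (hB : InjGE e D) (hL : Lune e D δ x u w₀ Z) (x₀ : M)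
    {t : ℝ} (ht : gam e x u t ∈ (extChartAt 𝓘(ℝ, E) x₀).source) :
    HasDerivAt (fun a => Lam' e δ x u w₀ x₀ (a, t))
      (δ • crc x₀ (gam e x u) (fun r => jf e x u 0 r w₀) t) 0 := by
  obtain ⟨L', hL'⟩ : ∃ L' : E, HasDerivAt (fun a => Lam' e δ x u w₀ x₀ (a, t)) L' 0 := by
    have h1 : DifferentiableAt ℝ (Lam' e δ x u w₀ x₀) (0, t) :=
      (hL.smooth_Lam F hB x₀ (p := (0, t)) ht).differentiableAt (by simp)
    have h2 : HasDerivAt (fun a : ℝ => (a, t)) ((1 : ℝ), (0 : ℝ)) 0 :=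
      (hasDerivAt_id (0 : ℝ)).prodMk (hasDerivAt_const (0 : ℝ) t)
    have h3 := h1.hasFDerivAt.comp_hasDerivAt (0 : ℝ) h2
    exact ⟨_, h3⟩
  refine hL'.congr_deriv ?_
  -- the logarithm itself
  have h3 : HasDerivAt (fun a => vec x₀ (gam e x u t) (Lam' e δ x u w₀ x₀ (a, t)))
      (vec x₀ (gam e x u t) L') 0 := by
    have h30 : HasFDerivAt (vec x₀ (gam e x u t)) (vec x₀ (gam e x u t))
      (Lam' e δ x u w₀ x₀ (0, t)) := (vec x₀ (gam e x u t)).hasFDerivAt
    exact h30.comp_hasDerivAt (0 : ℝ) hL'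
  have h4 : ∀ a, vec x₀ (gam e x u t) (Lam' e δ x u w₀ x₀ (a, t)) = Lo e δ x u w₀ a t :=
    fun a => vec_crd x₀ ht _
  have h5 := mfderiv_exp_curve F.isExp (gam e x u t) h3
  have h6 : (fun s => e (gam e x u t) (vec x₀ (gam e x u t) (Lam' e δ x u w₀ x₀ (s, t)))) =
      fun s => gam e x (rv0 u w₀ (δ * Real.sin s)) t := by
    funext s
    rw [h4 s]
    exact exp_lm F hB (hL.dist_lt _ (hL.abs_le s) t)
  have h7 : (vec x₀ (gam e x u t) (Lam' e δ x u w₀ x₀ (0, t)) : E) = 0 := by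
    rw [h4 0]
    exact hL.Lo_end F hB 0 (by rw [Real.sin_zero, mul_zero, rv0_zero])
  have h8 : (mfderiv 𝓘(ℝ, ℝ) 𝓘(ℝ, E) (fun s => gam e x (rv0 u w₀ (δ * Real.sin s)) t) 0
      (1 : ℝ) : E) = vec x₀ (gam e x u t) L' := by
    have h9 := mfderiv_congr_curve (E := E) h6 0
    have h10 : (dE e (gam e x u t) (vec x₀ (gam e x u t) (Lam' e δ x u w₀ x₀ (0, t)) : E)
        (vec x₀ (gam e x u t) L') : E) = vec x₀ (gam e x u t) L' := by
      rw [h7]
      exact dE_zero_base F.isExp _ _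
    exact h9.symm.trans (h5.trans h10)
  -- the rotated geodesic
  let u' : TangentSpace 𝓘(ℝ, E) x := u
  let w' : TangentSpace 𝓘(ℝ, E) x := w₀
  have g1 : HasDerivAt (fun a => δ * Real.sin a) δ 0 := by
    have := (Real.hasDerivAt_sin 0).const_mul δ
    rwa [Real.cos_zero, mul_one] at this
  have g2 : HasDerivAt (fun a => Real.cos (δ * Real.sin a)) 0 0 := by
    have h4 := (Real.hasDerivAt_cos (δ * Real.sin 0)).comp (0 : ℝ) g1
    rw [Real.sin_zero, mul_zero, Real.sin_zero, neg_zero, zero_mul] at h4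
    exact h4
  have g3 : HasDerivAt (fun a => Real.sin (δ * Real.sin a)) δ 0 := by
    have h4 := (Real.hasDerivAt_sin (δ * Real.sin 0)).comp (0 : ℝ) g1
    rw [Real.sin_zero, mul_zero, Real.cos_zero, one_mul] at h4
    exact h4
  have g4 : HasDerivAt (fun a => t • (Real.cos (δ * Real.sin a) • u' +
      Real.sin (δ * Real.sin a) • w')) (t • (δ • w')) 0 := by
    have h4 := ((g2.smul_const u').add (g3.smul_const w')).const_smul t
    rw [zero_smul, zero_add] at h4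
    exact h4
  have g5 := mfderiv_exp_curve F.isExp x g4
  have g6 : (t • (Real.cos (δ * Real.sin 0) • u' + Real.sin (δ * Real.sin 0) • w') :
      TangentSpace 𝓘(ℝ, E) x) = t • u' := by
    rw [Real.sin_zero, mul_zero, Real.cos_zero, Real.sin_zero, one_smul, zero_smul, add_zero]
  have g7 : (vec x₀ (gam e x u t) L' : E) = δ • jf e x u 0 t w₀ := by
    have h00 : jf e x u 0 t w₀ = t • dE e x (t • u) w₀ := by
      unfold jf
      rw [gam_zero F.isExp, vel_zero F.isExp, sub_zero]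
    rw [h00]
    refine h8.symm.trans (g5.trans ?_)
    have g8 : (dE e x (t • (Real.cos (δ * Real.sin 0) • u' + Real.sin (δ * Real.sin 0) • w') :
      TangentSpace 𝓘(ℝ, E) x) (t • (δ • w')) : E) = dE e x (t • u : E) (t • (δ • w₀) : E) :=
      congrArg (fun z : E => dE e x z (t • (δ • w₀) : E)) g6
    rw [g8, dE_smul, dE_smul, smul_comm]
  have g8 := crd_vec x₀ ht L'
  rw [← g8]
  refine Eq.trans (congrArg (fun z : E => (crd x₀ (gam e x u t) z : E)) g7) ?_
  exact map_smul (crd x₀ (gam e x u t)) δ _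

theorem Lune.deriv_k2 (F : Facts e) (hB : InjGE e D) (hL : Lune e D δ x u w₀ Z) (t : ℝ) :
    deriv (fun a => k2 e δ x u w₀ Z (a, t)) 0 = δ * bet e x u (fun r => jf e x u 0 r w₀) Z t := by
  have hγ : ContMDiff 𝓘(ℝ, ℝ) 𝓘(ℝ, E) ∞ (gam e x u) := contMDiff_gam F.isExp x u
  obtain ⟨G, hG, hjet⟩ := exists_jetfun F.isExp hγ t
  have hsrc : gam e x u t ∈ (extChartAt 𝓘(ℝ, E) (gam e x u t)).source := mem_extChartAt_source _
  have hsrc2 : ∀ᶠ s in 𝓝 t, gam e x u s ∈ (extChartAt 𝓘(ℝ, E) (gam e x u t)).source :=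
    hγ.continuous.continuousAt.eventually ((isOpen_extChartAt_source _).mem_nhds hsrc)
  -- the jet of `Z`
  obtain ⟨Z', hZ'⟩ : ∃ Z' : E, HasDerivAt (crc (gam e x u t) (gam e x u) Z) Z' t := by
    have h1 := ((smV_iff (f := gam e x u) (gam e x u t) hsrc).1 (hL.smooth t)).2
    exact ⟨_, (h1.differentiableAt (by simp)).hasDerivAt⟩
  -- the jet of the logarithm
  have hLam : ∀ a, ContDiffAt ℝ ∞ (Lam' e δ x u w₀ (gam e x u t)) (a, t) := fun a =>
    hL.smooth_Lam F hB (gam e x u t) (p := (a, t)) hsrc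
  have hLt : ∀ a, HasDerivAt (crc (gam e x u t) (gam e x u) (Lo e δ x u w₀ a))
      (fderiv ℝ (Lam' e δ x u w₀ (gam e x u t)) (a, t) (0, 1)) t := by
    intro a
    have h2 : HasDerivAt (fun s : ℝ => (a, s)) ((0 : ℝ), (1 : ℝ)) t :=
      (hasDerivAt_const t a).prodMk (hasDerivAt_id t)
    exact ((hLam a).differentiableAt (by simp)).hasFDerivAt.comp_hasDerivAt t h2
  have hk : ∀ a, k2 e δ x u w₀ Z (a, t) = deriv (fun s : ℝ =>
      G ((Lam' e δ x u w₀ (gam e x u t) (a, t),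
        fderiv ℝ (Lam' e δ x u w₀ (gam e x u t)) (a, t) (0, 1)) +
        s • (crc (gam e x u t) (gam e x u) Z t, Z'))) 0 := by
    intro a
    unfold k2
    congr 1
    funext s
    have h3 : HasDerivAt (crc (gam e x u t) (gam e x u) (fun r => Lo e δ x u w₀ a r + s • Z r))
        (fderiv ℝ (Lam' e δ x u w₀ (gam e x u t)) (a, t) (0, 1) + s • Z') t := by
      refine ((hLt a).add (hZ'.const_smul s)).congr_of_eventuallyEq
        (Eventually.of_forall fun r => ?_)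
      exact crc_add' _ _ _ _ _ _
    refine (hjet _ _ h3).trans ?_
    rw [crc_add']
    rfl
  -- derivatives in `a`
  obtain ⟨j', hj1, hj2⟩ := jet_deriv hL.hδ.ne' (hLam 0)
    (j := crc (gam e x u t) (gam e x u) (fun r => jf e x u 0 r w₀)) (by
      filter_upwards [hsrc2] with s hs
      exact hL.deriv_Lam F hB (gam e x u t) hs)
  -- the value at `a = 0`
  have hzero : ∀ s, Lam' e δ x u w₀ (gam e x u t) (0, s) = 0 := by
    intro s
    unfold Lam' crc
    rw [hL.Lo_end F hB 0 (by rw [Real.sin_zero, mul_zero, rv0_zero])]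
    exact map_zero (crd (gam e x u t) (gam e x u s))
  have hzero' : fderiv ℝ (Lam' e δ x u w₀ (gam e x u t)) (0, t) (0, 1) = 0 := by
    have h3 := hLt 0
    have h7 : crc (gam e x u t) (gam e x u) (Lo e δ x u w₀ 0) = fun _ => (0 : E) := by
      funext s
      exact hzero s
    rw [h7] at h3
    exact h3.unique (hasDerivAt_const t (0 : E))
  simp only [hk]
  rw [deriv_mixed (hG.of_le Fm.two_le_infty) hj2 (by
    rw [hzero, hzero']
    rfl), bet_eq hG hjet hj1 hZ', map_smul]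
  rfl

variable [IsRiemannianManifold 𝓘(ℝ, E) M]

/-- **The second variation against a Jacobi field vanishing at both ends.** -/
theorem Lune.formula (F : Facts e) (hB : InjGE e D) (hL : Lune e D δ x u w₀ Z) :
    ∫ t in (0 : ℝ)..D, bet e x u (fun r => jf e x u 0 r w₀) Z t =
      ip (gam e x u D) (P231.vel e x w₀ D) (Z D) - ip x w₀ (Z 0) := by
  have h1 := hL.int_deriv_k2 F hB
  simp only [hL.deriv_k2 F hB] at h1
  rw [intervalIntegral.integral_const_mul] at h1
  exact mul_left_cancel₀ hL.hδ.ne' h1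

end

end

end Vale.Agent.P231.H997
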