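import Vale.Agent.P231.H997.SV6
import Vale.Agent.P231.H583.C1
import Vale.Agent.P231.WR.Th
import Vale.Agent.P231.WC.Slide
import Vale.Agent.P231.WC.Vel

/-!
# P231, block C: the lune formula on the unit tangent bundle
-/

set_option maxSynthPendingDepth 3
set_option linter.unusedSectionVars false
set_option linter.unusedVariables false

open Bundle Manifold Set Filter Module MeasureTheory
open scoped ContDiff Manifold Topology

namespace Vale.Agent.P231.H997

noncomputable section

open Vale.Agent.P234 Vale.Agent.P231 Vale.Agent.P231.H775 Vale.Agent.P231.Fm Vale.Agent.P231.W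
open Vale.Agent.P231.WD3 Vale.Agent.P231.WR

variable {E : Type*} [NormedAddCommGroup E] [NormedSpace ℝ E] [FiniteDimensional ℝ E]
  {M : Type*} [MetricSpace M] [ChartedSpace E M] [IsManifold 𝓘(ℝ, E) ∞ M]
  [RiemannianBundle (fun x : M => TangentSpace 𝓘(ℝ, E) x)]
  [IsContMDiffRiemannianBundle 𝓘(ℝ, E) ∞ E (fun x : M => TangentSpace 𝓘(ℝ, E) x)]
  {e : ∀ x : M, TangentSpace 𝓘(ℝ, E) x → M}
  [CompactSpace M] [ConnectedSpace M] [IsRiemannianManifold 𝓘(ℝ, E) M]

/-- the rotated geodesics stay close for small angles -/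
theorem tube (F : Facts e) {D : ℝ} (hD : 0 < D) (hB : InjGE e D)
    (hdiam : ∀ p q : M, dist p q ≤ D) {x : M} {u w₀ : E} (hunit : ∀ b, nm x (rv0 u w₀ b) = 1) :
    ∃ δ : ℝ, 0 < δ ∧ ∀ b, |b| ≤ δ → ∀ t,
      dist (gam e x u t) (gam e x (rv0 u w₀ b) t) < D := by
  have hcl : ∀ (x : M) (v : E), nm x v = 2 * D → e x v = x :=
    fun x v hv => closed_of_inj_diam F hD hB hdiam x v hv
  have hu : nm x u = 1 := by
    have := hunit 0
    rwa [rv0_zero] at this
  have hc : Continuous fun p : ℝ × ℝ => dist (gam e x u p.2) (gam e x (rv0 u w₀ p.1) p.2) :=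
    ((contMDiff_gam F.isExp x u).continuous.comp continuous_snd).dist
      (contMDiff_rot F.isExp x u w₀).continuous
  have ho : IsOpen {p : ℝ × ℝ | dist (gam e x u p.2) (gam e x (rv0 u w₀ p.1) p.2) < D} :=
    isOpen_lt hc continuous_const
  obtain ⟨A, B, hA, hB', hA0, hBI, hAB⟩ := generalized_tube_lemma (isCompact_singleton (x := (0 : ℝ)))
    (isCompact_Icc (a := (0 : ℝ)) (b := 2 * D)) ho (by
      rintro ⟨b, t⟩ ⟨hb, -⟩
      simp only [mem_singleton_iff] at hb
      subst hb
      simp only [mem_ofPred_eq, rv0_zero, dist_self]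
      exact hD)
  obtain ⟨δ, hδ, hδA⟩ := Metric.nhds_basis_closedBall.mem_iff.1
    (hA.mem_nhds (hA0 (mem_singleton (0 : ℝ))))
  refine ⟨δ, hδ, fun b hb t => ?_⟩
  have hper : Function.Periodic (fun t => dist (gam e x u t) (gam e x (rv0 u w₀ b) t)) (2 * D) := by
    intro t
    simp only
    rw [gam_per F hD.le hcl x u hu, gam_per F hD.le hcl x _ (hunit b)]
  obtain ⟨t', ht', h⟩ := hper.exists_mem_Ico₀ (by positivity) t
  rw [h]
  have hbA : b ∈ A := hδA (by
    rw [Metric.mem_closedBall, Real.dist_eq, sub_zero]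
    exact hb)
  exact hAB (show (b, t') ∈ A ×ˢ B from ⟨hbA, hBI ⟨ht'.1, ht'.2.le⟩⟩)

/-- the polarised second variation of the Jacobi field of `u` and the field `Y` -/
def bU (F : Facts e) (w : UT E M → UT E M) (Y : UT E M → E) (u : UT E M) (t : ℝ) : ℝ :=
  bet e (foot u) (vec' u) (fun r => jf e (foot u) (vec' u) 0 r (vec' (w u)))
    (fun r => Y (phi F (u, r))) t

/-- a field along a geodesic -/
theorem smV_line (F : Facts e) {Y : UT E M → E}
    (hY : (dUT E M).Map (dTM E M) (fun v => tb (foot v) (Y v))) (u : UT E M) (t : ℝ) :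
    SmV (gam e (foot u) (vec' u)) (fun t => (Y (phi F (u, t)) : E)) t := by
  have h1 : (dUT E M).At (fun t : ℝ => phi F (u, t)) t :=
    map_phi F (u := fun t : ℝ => (u, t)) ⟨H583.at_const u t, Sm.of_contDiff contDiff_id t⟩
  exact (hY h1).self_of_nhds

theorem bU_formula (F : Facts e) {D : ℝ} (hD : 0 < D) (hB : InjGE e D)
    (hdiam : ∀ p q : M, dist p q ≤ D) {w : UT E M → UT E M} (h : IsSec e D w)
    {Y : UT E M → E} (hY : (dUT E M).Map (dTM E M) (fun v => tb (foot v) (Y v))) (u : UT E M) :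
    ∫ t in (0 : ℝ)..D, bU F w Y u t =
      ip (bar e D u) (vel e (foot u) (vec' (w u)) D) (Y (phi F (u, D))) -
        ip (foot u) (vec' (w u)) (Y u) := by
  have hunit : ∀ b, nm (foot u) (rv0 (vec' u) (vec' (w u)) b) = 1 := fun b => nm_vec' (h.rot (u, b))
  obtain ⟨δ, hδ, hdist⟩ := tube F hD hB hdiam hunit
  have hL : Lune e D δ (foot u) (vec' u) (vec' (w u)) (fun r => Y (phi F (u, r))) :=
    { hD := hD
      hδ := hδ
      unit := hunit
      dist_lt := hdist
      smooth := smV_line F hY u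
      bar := fun b => h.bar_rot F hD hB hdiam (u, b)
      vel := fun b => vel_comb F hD hB hdiam (dist_foot_bar F hD hB u) (mem_Lk_self D u)
        (h.isL u).mem_Lk ((h.isL u).comb F hD hB hdiam (Real.cos_sq_add_sin_sq b)) }
  have h1 := hL.formula F hB
  rw [phi_zero] at h1
  exact h1

end

end Vale.Agent.P231.H997
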