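import Vale.Agent.P231.H997.SV7

/-!
# P231, block C: the jet of the field `Yf` is the integral of the jets of the Jacobi fields
-/

set_option maxSynthPendingDepth 3
set_option linter.unusedSectionVars false
set_option linter.unusedVariables false

open Bundle Manifold Set Filter Module MeasureTheory
open scoped ContDiff Manifold Topology

namespace Vale.Agent.P231.H997

noncomputable section

open Vale.Agent.P234 Vale.Agent.P231 Vale.Agent.P231.H775 Vale.Agent.P231.Fm Vale.Agent.P231.W
open Vale.Agent.P231.WD3 Vale.Agent.P231.WR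

variable {E : Type*} [NormedAddCommGroup E] [NormedSpace ℝ E] [FiniteDimensional ℝ E]
  {M : Type*} [MetricSpace M] [ChartedSpace E M] [IsManifold 𝓘(ℝ, E) ∞ M]
  [RiemannianBundle (fun x : M => TangentSpace 𝓘(ℝ, E) x)]
  [IsContMDiffRiemannianBundle 𝓘(ℝ, E) ∞ E (fun x : M => TangentSpace 𝓘(ℝ, E) x)]
  {e : ∀ x : M, TangentSpace 𝓘(ℝ, E) x → M}
  [CompactSpace M] [ConnectedSpace M] [IsRiemannianManifold 𝓘(ℝ, E) M]

/-- the energy density at a shifted time -/
theorem en_shift {c : ℝ → M} {r : ℝ} (hc : MDifferentiableAt 𝓘(ℝ, ℝ) 𝓘(ℝ, E) c r) :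
    en (E := E) (fun t => c (t + r)) 0 = en (E := E) c r := by
  have h1 : HasDerivAt (fun t : ℝ => t + r) 1 0 := (hasDerivAt_id (0 : ℝ)).add_const r
  have h2 : MDifferentiableAt 𝓘(ℝ, ℝ) 𝓘(ℝ, E) c (0 + r) := by rwa [zero_add]
  have h3 := dv_comp (E := E) (g := fun t : ℝ => t + r) (t := 0) h2 h1
  unfold en
  rw [h3, one_smul]
  simp only [zero_add]

/-- the Jacobi field along a geodesic is smooth -/
theorem smV_jac (F : Facts e) {D : ℝ} {w : UT E M → UT E M} (h : IsSec e D w) (u : UT E M)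
    (t : ℝ) : SmV (gam e (foot u) (vec' u))
      (fun r => (jf e (foot u) (vec' u) 0 r (vec' (w u)) : E)) t :=
  (H583.at_Jw F h (H583.at_const u t) (Sm.of_contDiff contDiff_id t)).self_of_nhds

/-- the coordinates of the Jacobi fields of the sliding family -/
def jj (F : Facts e) (w : UT E M → UT E M) (v : UT E M) (p : ℝ × ℝ) : E :=
  crc (gam e (foot v) (vec' v) 0) (gam e (foot v) (vec' v))
    (fun t => WC.Jw e w (phi F (v, p.1)) (t - p.1)) p.2

/-- the set of times in the chart -/
def chU (v : UT E M) (e : ∀ x : M, TangentSpace 𝓘(ℝ, E) x → M) : Set ℝ :=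
  {t | gam e (foot v) (vec' v) t ∈
    (extChartAt 𝓘(ℝ, E) (gam e (foot v) (vec' v) 0)).source}

theorem isOpen_chU (F : Facts e) (v : UT E M) : IsOpen (chU v e) :=
  (isOpen_extChartAt_source _).preimage (contMDiff_gam F.isExp (foot v) (vec' v)).continuous

theorem zero_mem_chU (v : UT E M) : (0 : ℝ) ∈ chU v e := mem_extChartAt_source _

theorem sm_jj (F : Facts e) {D : ℝ} {w : UT E M → UT E M} (h : IsSec e D w) (v : UT E M) (s : ℝ)
    {t : ℝ} (ht : t ∈ chU v e) : Sm (jj F w v) (s, t) := by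
  have h1 : (dUT E M).At (fun p : ℝ × ℝ => phi F (v, p.1)) (s, t) :=
    map_phi F (u := fun p : ℝ × ℝ => (v, p.1))
      ⟨H583.at_const v (s, t), Sm.of_contDiff contDiff_fst _⟩
  have h2 := H583.at_Jw F h h1 (ρ := fun p : ℝ × ℝ => p.2 - p.1)
    (Sm.of_contDiff (contDiff_snd.sub contDiff_fst) _)
  have h3 : ∀ᶠ p in 𝓝 (s, t), p.2 ∈ chU v e :=
    continuous_snd.continuousAt.eventually ((isOpen_chU F v).mem_nhds ht)
  filter_upwards [h2, h3] with p hp1 hp2
  have h4 : SmV (fun p : ℝ × ℝ => gam e (foot v) (vec' v) p.2)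
      (fun p : ℝ × ℝ => (WC.Jw e w (phi F (v, p.1)) (p.2 - p.1) : E)) p := by
    refine ContMDiffAt.congr_of_eventuallyEq hp1 (Eventually.of_forall fun q => ?_)
    refine tb_congr ?_ rfl
    have h5 := gm_phi F v q.1 (q.2 - q.1)
    rw [add_sub_cancel] at h5
    exact h5.symm
  exact ((smV_iff (f := fun p : ℝ × ℝ => gam e (foot v) (vec' v) p.2) _ hp2).1 h4).2

theorem jj_start (F : Facts e) (w : UT E M → UT E M) (v : UT E M) (t : ℝ) :
    jj F w v (t, t) = 0 := by
  unfold jj crc
  have h1 : WC.Jw e w (phi F (v, t)) (t - t) = 0 := by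
    rw [H583.wc_Jw, H583.Jw_eq F, sub_self, zero_smul]
  simp only [h1]
  exact map_zero (crd _ _)

theorem jj_end (F : Facts e) {D : ℝ} (hD : 0 < D) (hB : InjGE e D)
    (hdiam : ∀ p q : M, dist p q ≤ D) {w : UT E M → UT E M} (h : IsSec e D w) (v : UT E M)
    (t : ℝ) : jj F w v (t - D, t) = 0 := by
  unfold jj crc
  have h1 : WC.Jw e w (phi F (v, t - D)) (t - (t - D)) = 0 := by
    rw [H583.wc_Jw, H583.Jw_eq F, sub_sub_cancel]
    have h2 := H583.dE_of_isL F hD hB hdiam (h.isL (phi F (v, t - D)))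
    unfold H583.Jd
    rw [h2, smul_zero]
  simp only [h1]
  exact map_zero (crd _ _)

/-- the coordinates of `Yf` -/
theorem crc_Yf (F : Facts e) {D : ℝ} {w : UT E M → UT E M} (h : IsSec e D w) (v : UT E M)
    (t : ℝ) : crc (gam e (foot v) (vec' v) 0) (gam e (foot v) (vec' v))
      (fun t => WC.Yf F D w (phi F (v, t))) t = ∫ r in (0 : ℝ)..D, jj F w v (t - r, t) := by
  have : CompleteSpace E := FiniteDimensional.complete ℝ E
  let L : E →L[ℝ] E := crd (gam e (foot v) (vec' v) 0) (gam e (foot v) (vec' v) t)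
  have h1 : Continuous (fun r : ℝ => WC.Jw e w (phi F (phi F (v, t), -r)) r) :=
    H583.continuous_integrand F h (phi F (v, t))
  have h2 := L.intervalIntegral_comp_comm (μ := volume) (a := 0) (b := D)
    (h1.intervalIntegrable 0 D)
  refine Eq.trans h2.symm ?_
  refine intervalIntegral.integral_congr fun r _ => ?_
  change L (WC.Jw e w (phi F (phi F (v, t), -r)) r) =
    L (WC.Jw e w (phi F (v, t - r)) (t - (t - r)))
  rw [phi_add, sub_sub_cancel, sub_eq_add_neg]

/-- **second variation at a vector as an integral of polarised second variations** -/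
theorem second_eq (F : Facts e) {D : ℝ} (hD : 0 < D) (hB : InjGE e D)
    (hdiam : ∀ p q : M, dist p q ≤ D) {w : UT E M → UT E M} (h : IsSec e D w) (v : UT E M) :
    deriv (deriv (fun s : ℝ => en (E := E) (fun t => e (gam e (foot v) (vec' v) t)
      (s • WC.Yf F D w (phi F (v, t)) : E)) 0)) 0 =
    ∫ r in (0 : ℝ)..D, bU F w (WC.Yf F D w) (phi F (v, -r)) r := by
  have : CompleteSpace E := FiniteDimensional.complete ℝ E
  have hYs : (dUT E M).Map (dTM E M) (fun v => tb (foot v) (WC.Yf F D w v)) :=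
    H583.map_Yf F h
  have hγ : ContMDiff 𝓘(ℝ, ℝ) 𝓘(ℝ, E) ∞ (gam e (foot v) (vec' v)) :=
    contMDiff_gam F.isExp (foot v) (vec' v)
  obtain ⟨G, hG, hjet⟩ := exists_jetfun F.isExp hγ 0
  -- the jet of `Yf`
  have hY := WC.hasDerivAt_slide (isOpen_chU F v) (fun s t ht => sm_jj F h v s ht) D
    (zero_mem_chU v)
  rw [jj_start F w v 0, jj_end F hD hB hdiam h v 0, sub_zero, zero_add] at hY
  have hY' : HasDerivAt (crc (gam e (foot v) (vec' v) 0) (gam e (foot v) (vec' v))
      (fun t => WC.Yf F D w (phi F (v, t)))) (∫ r in (0 : ℝ)..D, WC.d2 (jj F w v) (0 - r, 0)) 0 :=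
    hY.congr_of_eventuallyEq (Eventually.of_forall fun t => crc_Yf F h v t)
  have hY0 := crc_Yf F h v 0
  -- the jets of the Jacobi fields
  have hJ : ∀ r : ℝ, HasDerivAt (crc (gam e (foot v) (vec' v) 0) (gam e (foot v) (vec' v))
      (fun t => WC.Jw e w (phi F (v, -r)) (t + r))) (WC.d2 (jj F w v) (0 - r, 0)) 0 := by
    intro r
    have h1 := WC.hasDerivAt_d2 ((sm_jj F h v (0 - r) (zero_mem_chU v)).differentiableAt)
    refine h1.congr_of_eventuallyEq (Eventually.of_forall fun t => ?_)
    unfold jj crc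
    simp only
    rw [zero_sub, sub_neg_eq_add]
  have hJ0 : ∀ r : ℝ, crc (gam e (foot v) (vec' v) 0) (gam e (foot v) (vec' v))
      (fun t => WC.Jw e w (phi F (v, -r)) (t + r)) 0 = jj F w v (0 - r, 0) := by
    intro r
    unfold jj crc
    simp only
    rw [zero_sub, sub_neg_eq_add]
  -- the polarised second variation
  have hb : ∀ r : ℝ, bU F w (WC.Yf F D w) (phi F (v, -r)) r =
      fderiv ℝ (fderiv ℝ G) 0 (jj F w v (0 - r, 0), WC.d2 (jj F w v) (0 - r, 0))
        (crc (gam e (foot v) (vec' v) 0) (gam e (foot v) (vec' v))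
          (fun t => WC.Yf F D w (phi F (v, t))) 0,
          ∫ r in (0 : ℝ)..D, WC.d2 (jj F w v) (0 - r, 0)) := by
    intro r
    have h1 := bet_eq (t := 0) hG hjet (hJ r) hY'
    rw [hJ0] at h1
    rw [← h1]
    unfold bU bet
    congr 1
    funext a
    congr 1
    funext s
    -- the shift
    have h2 : ContMDiffAt 𝓘(ℝ, ℝ) 𝓘(ℝ, E) ∞ (fun t =>
        e (gam e (foot (phi F (v, -r))) (vec' (phi F (v, -r))) t)
        (a • jf e (foot (phi F (v, -r))) (vec' (phi F (v, -r))) 0 t (vec' (w (phi F (v, -r)))) +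
          s • WC.Yf F D w (phi F (phi F (v, -r), t)) : E)) r :=
      ((SmV.smul contDiffAt_const (smV_jac F h (phi F (v, -r)) r)).add
        (SmV.smul contDiffAt_const (smV_line F hYs (phi F (v, -r)) r))).exp F.isExp
    rw [← en_shift (h2.mdifferentiableAt (by simp))]
    congr 1
    funext t
    have h3 : gam e (foot (phi F (v, -r))) (vec' (phi F (v, -r))) (t + r) =
        gam e (foot v) (vec' v) t := by
      have h4 := gm_phi F v (-r) (t + r)
      rw [show -r + (t + r) = t by ring] at h4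
      exact h4
    have h5 : phi F (phi F (v, -r), t + r) = phi F (v, t) := by
      rw [phi_add, show -r + (t + r) = t by ring]
    rw [h3, h5]
    rfl
  -- the second derivative
  set q : E × E := (crc (gam e (foot v) (vec' v) 0) (gam e (foot v) (vec' v))
          (fun t => WC.Yf F D w (phi F (v, t))) 0,
          ∫ r in (0 : ℝ)..D, WC.d2 (jj F w v) (0 - r, 0)) with hq
  have hen : (fun s : ℝ => en (E := E) (fun t => e (gam e (foot v) (vec' v) t)
      (s • WC.Yf F D w (phi F (v, t)) : E)) 0) = fun s : ℝ => G (s • q) := by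
    funext s
    have h1 : HasDerivAt (crc (gam e (foot v) (vec' v) 0) (gam e (foot v) (vec' v))
      (fun t => s • WC.Yf F D w (phi F (v, t))))
        (s • ∫ r in (0 : ℝ)..D, WC.d2 (jj F w v) (0 - r, 0)) 0 := by
      refine (hY'.const_smul s).congr_of_eventuallyEq (Eventually.of_forall fun t => ?_)
      exact map_smul (crd (gam e (foot v) (vec' v) 0) (gam e (foot v) (vec' v) t)) s _
    refine (hjet _ _ h1).trans ?_
    have h2 : crc (gam e (foot v) (vec' v) 0) (gam e (foot v) (vec' v))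
      (fun t => s • WC.Yf F D w (phi F (v, t))) 0 = s • crc (gam e (foot v) (vec' v) 0)
        (gam e (foot v) (vec' v)) (fun t => WC.Yf F D w (phi F (v, t))) 0 :=
      map_smul (crd (gam e (foot v) (vec' v) 0) (gam e (foot v) (vec' v) 0)) s _
    rw [h2]
    rfl
  rw [hen, (deriv_ray (hG.of_le Fm.two_le_infty) q).1]
  simp only [hb]
  -- linearity
  have hc0 : Continuous fun r : ℝ => jj F w v (0 - r, 0) := by
    rw [continuous_iff_continuousAt]
    intro r
    exact (sm_jj F h v (0 - r) (zero_mem_chU v)).continuousAt.comp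
      (f := fun r : ℝ => ((0 - r, 0) : ℝ × ℝ))
      ((continuous_const.sub continuous_id).prodMk continuous_const).continuousAt
  have hc1 : Continuous fun r : ℝ => WC.d2 (jj F w v) (0 - r, 0) := by
    rw [continuous_iff_continuousAt]
    intro r
    exact (WC.sm_d2 (sm_jj F h v (0 - r) (zero_mem_chU v))).continuousAt.comp
      (f := fun r : ℝ => ((0 - r, 0) : ℝ × ℝ))
      ((continuous_const.sub continuous_id).prodMk continuous_const).continuousAt
  let L : E × E →L[ℝ] ℝ := (fderiv ℝ (fderiv ℝ G) 0).flip q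
  change L q = ∫ r in (0 : ℝ)..D, L (jj F w v (0 - r, 0), WC.d2 (jj F w v) (0 - r, 0))
  have hL : ∀ a b : E, L (a, b) = (L ∘L ContinuousLinearMap.inl ℝ E E) a +
      (L ∘L ContinuousLinearMap.inr ℝ E E) b := by
    intro a b
    have h1 : ((a, b) : E × E) = (a, 0) + (0, b) := by simp
    rw [h1, map_add]
    rfl
  have hq1 : q = (∫ r in (0 : ℝ)..D, jj F w v (0 - r, 0),
      ∫ r in (0 : ℝ)..D, WC.d2 (jj F w v) (0 - r, 0)) := by
    rw [hq, hY0]
  rw [hq1, hL, ← ContinuousLinearMap.intervalIntegral_comp_comm _ (hc0.intervalIntegrable 0 D),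
    ← ContinuousLinearMap.intervalIntegral_comp_comm _ (hc1.intervalIntegrable 0 D),
    ← intervalIntegral.integral_add]
  · refine intervalIntegral.integral_congr fun r _ => ?_
    exact (hL _ _).symm
  · exact ((ContinuousLinearMap.continuous _).comp hc0).intervalIntegrable 0 D
  · exact ((ContinuousLinearMap.continuous _).comp hc1).intervalIntegrable 0 D

end

end Vale.Agent.P231.H997
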