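import Vale.Agent.P231.H997.SV8
import Vale.Agent.P231.H766.Unif

/-!
# P231, block C: the second variation of the energy of the loops of the push-off
-/

set_option maxSynthPendingDepth 3
set_option linter.unusedSectionVars false
set_option linter.unusedVariables false

open Bundle Manifold Set Filter Module MeasureTheory
open scoped ContDiff Manifold Topology

namespace Vale.Agent.P231.H997

noncomputable section

open Vale.Agent.P234 Vale.Agent.P231 Vale.Agent.P231.H775 Vale.Agent.P231.Fm Vale.Agent.P231.W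
open Vale.Agent.P231.WD3 Vale.Agent.P231.WR

/-- partial derivatives of smooth functions are smooth -/
theorem contDiff_deriv_mid {V : Type*} [NormedAddCommGroup V] [NormedSpace ℝ V]
    {g : (V × ℝ) × ℝ → ℝ} (hg : ContDiff ℝ ∞ g) :
    ContDiff ℝ ∞ (fun p : V × ℝ => deriv (fun s => g ((p.1, s), p.2)) 0) := by
  have hk : ∀ p : V × ℝ, deriv (fun s => g ((p.1, s), p.2)) 0 =
      fderiv ℝ g ((p.1, 0), p.2) ((0, 1), 0) := by
    intro p
    have h5 : HasDerivAt (fun s : ℝ => ((p.1, s), p.2)) (((0 : V), (1 : ℝ)), (0 : ℝ)) 0 :=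
      ((hasDerivAt_const (0 : ℝ) p.1).prodMk (hasDerivAt_id (0 : ℝ))).prodMk
        (hasDerivAt_const (0 : ℝ) p.2)
    exact ((hg.differentiable (by simp) _).hasFDerivAt.comp_hasDerivAt (0 : ℝ) h5).deriv
  have h3 : ContDiff ℝ ∞ (fderiv ℝ g) := hg.fderiv_right (m := ∞) (by simp)
  have h4 : ContDiff ℝ ∞ (fun p : V × ℝ => ((p.1, (0 : ℝ)), p.2)) := by fun_prop
  rw [show (fun p : V × ℝ => deriv (fun s => g ((p.1, s), p.2)) 0) = _ from funext hk]
  exact (h3.comp h4).clm_apply contDiff_const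

theorem contDiff_deriv_fst {g : ℝ × ℝ → ℝ} (hg : ContDiff ℝ ∞ g) :
    ContDiff ℝ ∞ (fun p : ℝ × ℝ => deriv (fun s => g (s, p.2)) p.1) := by
  have hk : ∀ p : ℝ × ℝ, deriv (fun s => g (s, p.2)) p.1 = fderiv ℝ g (p.1, p.2) (1, 0) := by
    intro p
    have h5 : HasDerivAt (fun s : ℝ => (s, p.2)) ((1 : ℝ), (0 : ℝ)) p.1 :=
      (hasDerivAt_id p.1).prodMk (hasDerivAt_const p.1 p.2)
    exact ((hg.differentiable (by simp) _).hasFDerivAt.comp_hasDerivAt p.1 h5).deriv
  have h3 : ContDiff ℝ ∞ (fderiv ℝ g) := hg.fderiv_right (m := ∞) (by simp)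
  have h4 : ContDiff ℝ ∞ (fun p : ℝ × ℝ => (p.1, p.2)) := by fun_prop
  rw [show (fun p : ℝ × ℝ => deriv (fun s => g (s, p.2)) p.1) = _ from funext hk]
  exact (h3.comp h4).clm_apply contDiff_const

variable {E : Type*} [NormedAddCommGroup E] [NormedSpace ℝ E] [FiniteDimensional ℝ E]
  {M : Type*} [MetricSpace M] [ChartedSpace E M] [IsManifold 𝓘(ℝ, E) ∞ M]
  [RiemannianBundle (fun x : M => TangentSpace 𝓘(ℝ, E) x)]
  [IsContMDiffRiemannianBundle 𝓘(ℝ, E) ∞ E (fun x : M => TangentSpace 𝓘(ℝ, E) x)]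
  {e : ∀ x : M, TangentSpace 𝓘(ℝ, E) x → M}
  [CompactSpace M] [ConnectedSpace M] [IsRiemannianManifold 𝓘(ℝ, E) M]

/-- the polarised second variation is smooth in the vector and the time -/
theorem contDiff_bU (F : Facts e) {D : ℝ} {w : UT E M → UT E M} (h : IsSec e D w)
    {Y : UT E M → E} (hY : (dUT E M).Map (dTM E M) (fun v => tb (foot v) (Y v))) (v : UT E M) :
    ContDiff ℝ ∞ (fun p : ℝ × ℝ => bU F w Y (phi F (v, p.1)) p.2) := by
  -- the family of curves
  let H : ((ℝ × ℝ) × ℝ) × ℝ → M := fun p =>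
    e (gam e (foot (phi F (v, p.1.1.1))) (vec' (phi F (v, p.1.1.1))) p.2)
      (p.1.1.2 • jf e (foot (phi F (v, p.1.1.1))) (vec' (phi F (v, p.1.1.1))) 0 p.2
        (vec' (w (phi F (v, p.1.1.1)))) + p.1.2 • Y (phi F (phi F (v, p.1.1.1), p.2)) : E)
  have hH : ContMDiff 𝓘(ℝ, ((ℝ × ℝ) × ℝ) × ℝ) 𝓘(ℝ, E) ∞ H := by
    intro p
    have h1 : (dUT E M).At (fun p : ((ℝ × ℝ) × ℝ) × ℝ => phi F (v, p.1.1.1)) p :=
      map_phi F (u := fun p : ((ℝ × ℝ) × ℝ) × ℝ => (v, p.1.1.1))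
        ⟨H583.at_const v p, Sm.of_contDiff (by fun_prop) _⟩
    have h2 : SmV (fun p : ((ℝ × ℝ) × ℝ) × ℝ =>
          gam e (foot (phi F (v, p.1.1.1))) (vec' (phi F (v, p.1.1.1))) p.2)
        (fun p : ((ℝ × ℝ) × ℝ) × ℝ =>
          (jf e (foot (phi F (v, p.1.1.1))) (vec' (phi F (v, p.1.1.1))) 0 p.2
        (vec' (w (phi F (v, p.1.1.1)))) : E)) p :=
      (H583.at_Jw F h h1 (ρ := fun p : ((ℝ × ℝ) × ℝ) × ℝ => p.2)
        (Sm.of_contDiff contDiff_snd _)).self_of_nhds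
    have h3 : (dUT E M).At (fun p : ((ℝ × ℝ) × ℝ) × ℝ => phi F (phi F (v, p.1.1.1), p.2)) p :=
      map_phi F (u := fun p : ((ℝ × ℝ) × ℝ) × ℝ => (phi F (v, p.1.1.1), p.2))
        ⟨h1, Sm.of_contDiff contDiff_snd _⟩
    have h4 : SmV (fun p : ((ℝ × ℝ) × ℝ) × ℝ =>
          gam e (foot (phi F (v, p.1.1.1))) (vec' (phi F (v, p.1.1.1))) p.2)
        (fun p : ((ℝ × ℝ) × ℝ) × ℝ => (Y (phi F (phi F (v, p.1.1.1), p.2)) : E)) p :=
      (hY h3).self_of_nhds
    exact ((SmV.smul (c := fun p : ((ℝ × ℝ) × ℝ) × ℝ => p.1.1.2) (by fun_prop) h2).add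
      (SmV.smul (c := fun p : ((ℝ × ℝ) × ℝ) × ℝ => p.1.2) (by fun_prop) h4)).exp F.isExp
  have h1 := contDiff_en' (E := E) (V := (ℝ × ℝ) × ℝ) hH
  have h2 := contDiff_deriv_mid h1
  have h3 := contDiff_deriv_mid h2
  exact h3

theorem continuous_deriv_en {H : ℝ × ℝ → M} (hH : ContMDiff 𝓘(ℝ, ℝ × ℝ) 𝓘(ℝ, E) ∞ H) :
    Continuous fun t => deriv (fun s : ℝ => en (E := E) (fun t => H (s, t)) t) 0 := by
  have h2 : Continuous (fun p : ℝ × ℝ =>
      deriv (fun s : ℝ => en (E := E) (fun t => H (s, t)) p.2) p.1) :=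
    (contDiff_deriv_fst (contDiff_en (E := E) hH)).continuous
  have h3 : Continuous fun t : ℝ => ((0 : ℝ), t) := Continuous.prodMk_right (0 : ℝ)
  have h4 := h2.comp h3
  simp only [Function.comp_def] at h4
  exact h4

/-- the first variation of a closed geodesic -/
theorem first_var_closed (F : Facts e) {D : ℝ} (hD : 0 < D) (hB : InjGE e D) {x : M} {u : E}
    (hu : nm x u = 1) {H : ℝ × ℝ → M} (hH : ContMDiff 𝓘(ℝ, ℝ × ℝ) 𝓘(ℝ, E) ∞ H)
    (h0 : ∀ t, H (0, t) = gam e x u t) :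
    ∫ t in (0 : ℝ)..(2 * D), deriv (fun s : ℝ => en (E := E) (fun t => H (s, t)) t) 0 =
      ip (gam e x u (2 * D)) (vel e x u (2 * D)) (dv (fun s => H (s, 2 * D)) 0) -
        ip (gam e x u 0) (vel e x u 0) (dv (fun s => H (s, 0)) 0) := by
  have hc := continuous_deriv_en (E := E) hH
  have hint : ∀ a b : ℝ, IntervalIntegrable (fun t => deriv (fun s : ℝ => en (E := E)
      (fun t => H (s, t)) t) 0) volume a b := fun a b => hc.intervalIntegrable a b
  have h1 := first_var F hB hu (a := 0) (b := D / 2) (by linarith) (by linarith) hH h0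
  have h2 := first_var F hB hu (a := D / 2) (b := D) (by linarith) (by linarith) hH h0
  have h3 := first_var F hB hu (a := D) (b := D + D / 2) (by linarith) (by linarith) hH h0
  have h4 := first_var F hB hu (a := D + D / 2) (b := 2 * D) (by linarith) (by linarith) hH h0
  have h5 := intervalIntegral.integral_add_adjacent_intervals (hint 0 (D / 2)) (hint (D / 2) D)
  have h6 := intervalIntegral.integral_add_adjacent_intervals (hint 0 D) (hint D (D + D / 2))
  have h7 := intervalIntegral.integral_add_adjacent_intervals (hint 0 (D + D / 2))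
    (hint (D + D / 2) (2 * D))
  rw [← h7, ← h6, ← h5, h1, h2, h3, h4]
  ring

/-- the first variation of the closed geodesics by a field on the unit tangent bundle vanishes -/
theorem first_zero (F : Facts e) {D : ℝ} (hD : 0 < D) (hB : InjGE e D)
    (hdiam : ∀ p q : M, dist p q ≤ D) {Y : UT E M → E}
    (hY : (dUT E M).Map (dTM E M) (fun v => tb (foot v) (Y v))) (v : UT E M) :
    ∫ t in (0 : ℝ)..(2 * D), deriv (fun s : ℝ => en (E := E)
      (fun t => e (gam e (foot v) (vec' v) t) (s • Y (phi F (v, t)) : E)) t) 0 = 0 := by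
  have hH : ContMDiff 𝓘(ℝ, ℝ × ℝ) 𝓘(ℝ, E) ∞ (fun p : ℝ × ℝ =>
      e (gam e (foot v) (vec' v) p.2) (p.1 • Y (phi F (v, p.2)) : E)) := by
    intro p
    have h1 : SmV (fun p : ℝ × ℝ => gam e (foot v) (vec' v) p.2)
        (fun p : ℝ × ℝ => (Y (phi F (v, p.2)) : E)) p :=
      SmV.comp (h := fun p : ℝ × ℝ => p.2) (smV_line F hY v p.2) contDiffAt_snd
    exact (SmV.smul (c := fun p : ℝ × ℝ => p.1) contDiffAt_fst h1).exp F.isExp
  have h0 : ∀ t, (fun p : ℝ × ℝ => e (gam e (foot v) (vec' v) p.2)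
      (p.1 • Y (phi F (v, p.2)) : E)) (0, t) = gam e (foot v) (vec' v) t := by
    intro t
    change e (gam e (foot v) (vec' v) t) ((0 : ℝ) • Y (phi F (v, t)) : E) = _
    rw [zero_smul]
    exact F.isExp.map_zero _
  have hdv : ∀ t, dv (E := E) (fun s : ℝ => e (gam e (foot v) (vec' v) t)
      (s • Y (phi F (v, t)) : E)) 0 = Y (phi F (v, t)) := fun t =>
    (mfderiv_gam F.isExp _ _ 0).trans (vel_zero F.isExp _ _)
  have h1 := first_var_closed F hD hB (nm_vec' v) hH h0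
  refine h1.trans ?_
  simp only
  rw [hdv, hdv, sub_eq_zero]
  have key : ∀ v1 v2 : UT E M, v1 = v2 → ip (foot v1) (vec' v1) (Y v1) =
      ip (foot v2) (vec' v2) (Y v2) := by
    rintro v1 v2 rfl
    rfl
  exact key (phi F (v, 2 * D)) (phi F (v, 0)) (by
    rw [phi_per F hD hB hdiam, phi_zero])

end

end Vale.Agent.P231.H997
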